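import Vale.Agent.P284.MathlibUsed
import Vale.Agent.P284.GroupDefs

set_option linter.all false

section

section

namespace Vale.Agent.P284

open Function

universe u v w

/-- Working form of `LinVirtAb`. -/
def RepVA (G : Type u) [Group G] : Prop :=
  ∀ (V : Type w) [AddCommGroup V] [Module ℂ V] [FiniteDimensional ℂ V]
    (ρ : G →* Module.End ℂ V), ∃ A : Subgroup G, A.FiniteIndex ∧
      ∀ a ∈ A, ∀ b ∈ A, ρ a * ρ b = ρ b * ρ a

theorem finiteIndex_comap {G : Type u} {H : Type v} [Group G] [Group H] (f : G →* H)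
    (A : Subgroup H) (hA : A.FiniteIndex) : (A.comap f).FiniteIndex := by
  constructor
  rw [Subgroup.index_comap]
  exact (Subgroup.instFiniteIndex_subgroupOf A f.range).index_ne_zero

theorem finiteIndex_map_subtype {G : Type u} [Group G] (H : Subgroup G) (hH : H.FiniteIndex)
    (A : Subgroup H) (hA : A.FiniteIndex) : (A.map H.subtype).FiniteIndex := by
  constructor
  rw [Subgroup.index_map_subtype]
  exact mul_ne_zero hA.index_ne_zero hH.index_ne_zero

theorem VirtAb.of_comap {G : Type u} {H : Type v} [Group G] [Group H] (f : G →* H)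
    (hf : Injective f) (h : VirtAb H) : VirtAb G := by
  obtain ⟨A, hA, hab⟩ := h
  refine ⟨A.comap f, finiteIndex_comap f A hA, fun a ha b hb => hf ?_⟩
  simpa only [map_mul] using hab _ ha _ hb

theorem VirtAb.of_finiteIndex {G : Type u} [Group G] (H : Subgroup G) (hH : H.FiniteIndex)
    (h : VirtAb H) : VirtAb G := by
  obtain ⟨A, hA, hab⟩ := h
  refine ⟨A.map H.subtype, finiteIndex_map_subtype H hH A hA, ?_⟩
  rintro _ ⟨a, ha, rfl⟩ _ ⟨b, hb, rfl⟩
  have := hab a ha b hb
  simpa only [Subgroup.subtype_apply, Subgroup.coe_mul] using congrArg Subtype.val this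

theorem repVA_of_lin {G : Type u} [Group G] (h : LinVirtAb G) : RepVA.{u, w} G := by
  intro V _ _ _ ρ
  set b := Module.finBasis ℂ V
  let e : Module.End ℂ V ≃ₐ[ℂ] Matrix (Fin (Module.finrank ℂ V)) (Fin (Module.finrank ℂ V)) ℂ :=
    LinearMap.toMatrixAlgEquiv b
  let σ : G →* Matrix.GeneralLinearGroup (Fin (Module.finrank ℂ V)) ℂ :=
    (Units.map (e : Module.End ℂ V →* _)).comp ρ.toHomUnits
  obtain ⟨A, hA, hab⟩ := h _ σ
  refine ⟨A.comap σ.rangeRestrict, finiteIndex_comap _ A hA, fun a ha c hc => ?_⟩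
  have h1 := hab _ ha _ hc
  have h2 := congrArg (fun x : σ.range =>
    (Units.val (x : Matrix.GeneralLinearGroup (Fin (Module.finrank ℂ V)) ℂ))) h1
  have h3 : e (ρ a) * e (ρ c) = e (ρ c) * e (ρ a) := by simpa [σ] using h2
  apply e.injective
  simpa only [map_mul] using h3

/-- The property passes to finite-index subgroups, by inducing representations. -/
theorem RepVA.subgroup {G : Type u} [Group G] (h : RepVA.{u, max u w} G) (H : Subgroup G)
    (hH : H.FiniteIndex) : RepVA.{u, w} H := by
  classical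
  intro V _ _ _ ρ
  let W : Submodule ℂ (G → V) :=
    { carrier := {F | ∀ (x : H) (g : G), F (x * g) = ρ x (F g)}
      add_mem' := by
        intro F F' hF hF' x g
        simp only [Pi.add_apply, hF x g, hF' x g, map_add]
      zero_mem' := by
        intro x g
        simp only [Pi.zero_apply, map_zero]
      smul_mem' := by
        intro c F hF x g
        simp only [Pi.smul_apply, hF x g, map_smul] }
  have hWmem : ∀ F : G → V, F ∈ W ↔ ∀ (x : H) (g : G), F (x * g) = ρ x (F g) := fun F => Iff.rfl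
  -- finite dimensionality
  obtain ⟨T, hTf, hT⟩ : ∃ T : Set G, T.Finite ∧ ∀ g : G, ∃ x : H, ∃ t ∈ T, g = x * t := by
    have hfin : Finite (G ⧸ H) := Subgroup.finiteIndex_iff_finite_quotient.mp hH
    refine ⟨Set.range (fun q : G ⧸ H => (Quotient.out q)⁻¹), Set.finite_range _, fun g => ?_⟩
    have h1 : (Quotient.out ((g⁻¹ : G) : G ⧸ H))⁻¹ * g⁻¹ ∈ H := by
      rw [← QuotientGroup.eq]
      exact Quotient.out_eq _
    refine ⟨⟨g * Quotient.out ((g⁻¹ : G) : G ⧸ H), ?_⟩, _, ⟨((g⁻¹ : G) : G ⧸ H), rfl⟩, ?_⟩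
    · simpa only [mul_inv_rev, inv_inv] using H.inv_mem h1
    · simp only [mul_inv_cancel_right]
  have hTfin : Finite T := hTf
  let ev : W →ₗ[ℂ] (T → V) :=
    { toFun := fun F t => F.1 t
      map_add' := fun _ _ => rfl
      map_smul' := fun _ _ => rfl }
  have hev : Injective ev := by
    intro F F' hFF
    apply Subtype.ext
    funext g
    obtain ⟨x, t, ht, rfl⟩ := hT g
    rw [F.2 x t, F'.2 x t]
    have := congrFun hFF ⟨t, ht⟩
    exact congrArg _ this
  have hWfd : FiniteDimensional ℂ W := Module.Finite.of_injective ev hev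
  let R : G →* Module.End ℂ W :=
    { toFun := fun g =>
        { toFun := fun F => ⟨fun x => F.1 (x * g), by
            intro y x
            have := F.2 y (x * g)
            simpa only [mul_assoc] using this⟩
          map_add' := fun _ _ => rfl
          map_smul' := fun _ _ => rfl }
      map_one' := by
        ext F x
        simp only [mul_one, Subtype.coe_eta, LinearMap.coe_mk, AddHom.coe_mk, Module.End.one_apply]
      map_mul' := by
        intro a b
        ext F x
        simp only [LinearMap.coe_mk, AddHom.coe_mk, Module.End.mul_apply, mul_assoc] }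
  obtain ⟨A, hA, hab⟩ := h W R
  refine ⟨A.subgroupOf H, inferInstance, fun a ha b hb => ?_⟩
  ext v
  let F : W := ⟨fun g => if hg : g ∈ H then ρ ⟨g, hg⟩ v else 0, by
    intro x g
    by_cases hg : g ∈ H
    · have hxg : (x : G) * g ∈ H := H.mul_mem x.2 hg
      simp only [hg, hxg, dif_pos]
      have : (⟨(x : G) * g, hxg⟩ : H) = x * ⟨g, hg⟩ := rfl
      rw [this, map_mul]
      rfl
    · have hxg : (x : G) * g ∉ H := fun hx => hg ((H.mul_mem_cancel_left x.2).mp hx)
      simp only [hxg, ↓reduceDIte, hg, map_zero]⟩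
  have h1 := congrArg (fun L : Module.End ℂ W => (L F).1 1) (hab a ha b hb)
  have hFv : ∀ y : H, F.1 (y : G) = ρ y v := by
    intro y
    simp only [SetLike.coe_mem, ↓reduceDIte, Subtype.coe_eta, F]
  have h2 : F.1 ((a : G) * b) = F.1 ((b : G) * a) := by
    have e1 : ((R a * R b) F).1 1 = F.1 ((a : G) * b) := by
      change F.1 ((1 * (a : G)) * b) = _
      rw [one_mul]
    have e2 : ((R b * R a) F).1 1 = F.1 ((b : G) * a) := by
      change F.1 ((1 * (b : G)) * a) = _
      rw [one_mul]
    rw [← e1, ← e2]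
    exact h1
  have h3 := hFv (a * b)
  have h4 := hFv (b * a)
  rw [map_mul] at h3 h4
  rw [← h3, ← h4]
  exact h2

theorem lin_of_repVA {G : Type u} [Group G] (h : RepVA.{u, 0} G) : LinVirtAb G := by
  intro d ρ
  let e : Matrix (Fin d) (Fin d) ℂ ≃ₐ[ℂ] Module.End ℂ (Fin d → ℂ) := Matrix.toLinAlgEquiv'
  obtain ⟨A, hA, hab⟩ := h (Fin d → ℂ)
    ((e : Matrix (Fin d) (Fin d) ℂ →* Module.End ℂ (Fin d → ℂ)).comp
      ((Units.coeHom _).comp ρ))
  refine ⟨A.map ρ.rangeRestrict, ?_, ?_⟩
  · constructor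
    intro h0
    have := Subgroup.index_map_dvd A (f := ρ.rangeRestrict) ρ.rangeRestrict_surjective
    rw [h0] at this
    exact hA.index_ne_zero (Nat.eq_zero_of_zero_dvd this)
  · rintro _ ⟨a, ha, rfl⟩ _ ⟨b, hb, rfl⟩
    have h1 := hab a ha b hb
    have h2 : e ((ρ a).val * (ρ b).val) = e ((ρ b).val * (ρ a).val) := by
      simpa only [map_mul, MonoidHom.coe_comp, MonoidHom.coe_coe, comp_apply, Units.coeHom_apply] using h1
    have h3 := e.injective h2
    apply Subtype.ext
    apply Units.ext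
    simpa only [Subgroup.coe_mul, MonoidHom.coe_rangeRestrict, Units.val_mul] using h3

theorem LinVirtAb.subgroup {G : Type u} [Group G] (h : LinVirtAb G) (H : Subgroup G)
    (hH : H.FiniteIndex) : LinVirtAb H :=
  lin_of_repVA (RepVA.subgroup (repVA_of_lin h) H hH)

end Vale.Agent.P284
end
end

section

section

namespace Vale.Agent.P284

open Function

universe u v w

/-- A finitely generated group with a finite-kernel map to an abelian group is virtually abelian. -/
theorem virtAb_of_finite_ker {Q : Type u} {A : Type v} [Group Q] [CommGroup A] [Group.FG Q]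
    (f : Q →* A) (hf : Finite f.ker) : VirtAb Q := by
  have hsub : commutatorSet Q ⊆ (f.ker : Set Q) := by
    rintro _ ⟨a, b, rfl⟩
    simp only [commutatorElement_def, SetLike.mem_coe, MonoidHom.mem_ker, map_mul, map_inv, mul_inv_cancel_comm, mul_inv_cancel]
  have hfin : Finite (commutatorSet Q) := (Set.Finite.subset (s := (f.ker : Set Q)) hf hsub)
  refine ⟨Subgroup.center Q, inferInstance, fun a ha b _ => ?_⟩
  exact ((Subgroup.mem_center_iff.mp ha) b).symm

/-- Extensions of finitely generated groups are finitely generated. -/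
theorem fg_of_ker_fg {Q : Type u} {A : Type v} [Group Q] [Group A] (hA : Group.FG A)
    (f : Q →* A) (hf : Surjective f) (hK : f.ker.FG) : Group.FG Q := by
  classical
  obtain ⟨S, hS⟩ := hK
  obtain ⟨T, hT⟩ := hA.1
  let g : A → Q := Function.surjInv hf
  have hg : ∀ a, f (g a) = a := Function.surjInv_eq hf
  refine ⟨⟨S ∪ T.image g, ?_⟩⟩
  rw [eq_top_iff]
  intro q _
  have h1 : f q ∈ Subgroup.map f (Subgroup.closure ((T.image g : Finset Q) : Set Q)) := by
    rw [MonoidHom.map_closure]
    have : (f '' ((T.image g : Finset Q) : Set Q)) = (T : Set A) := by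
      ext a
      simp only [Finset.coe_image, Set.mem_image, SetLike.mem_coe, exists_exists_and_eq_and, hg, exists_eq_right]
    rw [this, hT]
    trivial
  obtain ⟨t, ht, htq⟩ := h1
  have h2 : t⁻¹ * q ∈ f.ker := by
    rw [MonoidHom.mem_ker, map_mul, map_inv, htq, inv_mul_cancel]
  rw [← hS] at h2
  have h3 : t ∈ Subgroup.closure ((S ∪ T.image g : Finset Q) : Set Q) :=
    Subgroup.closure_mono (by simp) ht
  have h4 : t⁻¹ * q ∈ Subgroup.closure ((S ∪ T.image g : Finset Q) : Set Q) :=
    Subgroup.closure_mono (by simp) h2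
  have := Subgroup.mul_mem _ h3 h4
  simpa using this

theorem finite_hom {K : Type u} {P : Type v} [Group K] [Group P] [Finite P] (hK : Group.FG K) :
    Finite (K →* P) := by
  obtain ⟨S, hS⟩ := hK.1
  refine Finite.of_injective (fun (f : K →* P) (s : S) => f s) ?_
  intro f g hfg
  refine MonoidHom.eq_of_eqOn_dense hS ?_
  intro s hs
  exact congrFun hfg ⟨s, hs⟩

/-- In a finitely generated normal subgroup `K`, every finite-index subgroup contains a
finite-index subgroup which is normal in the whole group. -/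
theorem exists_normal {Q : Type u} [Group Q] (K : Subgroup Q) [hKn : K.Normal] (hK : K.FG)
    (L : Subgroup K) (hL : L.FiniteIndex) :
    ∃ N : Subgroup Q, N.Normal ∧ N ≤ K ∧ (N.subgroupOf K).FiniteIndex ∧ N.subgroupOf K ≤ L := by
  have hKfg : Group.FG K := (Group.fg_iff_subgroup_fg K).mpr hK
  have hfin : Finite (K ⧸ L) := Subgroup.finiteIndex_iff_finite_quotient.mp hL
  have hP : Finite (K →* Equiv.Perm (K ⧸ L)) := finite_hom hKfg
  let M : Subgroup K := ⨅ θ : K →* Equiv.Perm (K ⧸ L), θ.ker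
  have hMfin : M.FiniteIndex := by
    apply Subgroup.finiteIndex_iInf
    intro θ
    have : Finite θ.range := inferInstance
    exact Subgroup.finiteIndex_ker θ
  have hML : M ≤ L := by
    intro k hk
    have h1 : k ∈ (MulAction.toPermHom K (K ⧸ L)).ker :=
      (Subgroup.mem_iInf.mp hk) (MulAction.toPermHom K (K ⧸ L))
    rw [MonoidHom.mem_ker] at h1
    have h2 := congrArg (fun σ : Equiv.Perm (K ⧸ L) => σ ((1 : K) : K ⧸ L)) h1
    have h3 : ((k : K) : K ⧸ L) = ((1 : K) : K ⧸ L) := by simpa only [MulAction.toPermHom_apply, MulAction.toPerm_apply, MulAction.Quotient.smul_mk, smul_eq_mul,     mul_one, Equiv.Perm.coe_one, id_eq] using h2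
    have h4 := (QuotientGroup.eq).mp h3.symm
    simpa only [inv_one, one_mul] using h4
  refine ⟨M.map K.subtype, ⟨?_⟩, ?_, ?_, ?_⟩
  · rintro _ ⟨k, hk, rfl⟩ q
    refine ⟨⟨q * (k : Q) * q⁻¹, hKn.conj_mem _ k.2 q⟩, ?_, rfl⟩
    have hk' := Subgroup.mem_iInf.mp hk
    refine Subgroup.mem_iInf.mpr (fun θ => ?_)
    let c : K →* K :=
      { toFun := fun x => ⟨q * (x : Q) * q⁻¹, hKn.conj_mem _ x.2 q⟩
        map_one' := by
          apply Subtype.ext
          simp only [OneMemClass.coe_one, mul_one, mul_inv_cancel]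
        map_mul' := by
          intro x y
          apply Subtype.ext
          simp only [Subgroup.coe_mul, mul_assoc, MulMemClass.mk_mul_mk, inv_mul_cancel_left] }
    exact hk' (θ.comp c)
  · rintro _ ⟨k, hk, rfl⟩
    exact k.2
  · have : (M.map K.subtype).subgroupOf K = M := by
      rw [Subgroup.subgroupOf, Subgroup.comap_map_eq_self_of_injective K.subtype_injective]
    rw [this]
    exact hMfin
  · have : (M.map K.subtype).subgroupOf K = M := by
      rw [Subgroup.subgroupOf, Subgroup.comap_map_eq_self_of_injective K.subtype_injective]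
    rw [this]
    exact hML

/-- A commuting family of endomorphisms of a nonzero finite-dimensional complex vector space has a
common eigenvector. -/
theorem exists_common_eigen {V : Type u} [AddCommGroup V] [Module ℂ V] [FiniteDimensional ℂ V]
    {ι : Type v} (T : ι → Module.End ℂ V) (hc : ∀ i j, T i * T j = T j * T i) :
    ∀ (n : ℕ) (W : Submodule ℂ V), Module.finrank ℂ W = n → W ≠ ⊥ →
      (∀ i, ∀ x ∈ W, T i x ∈ W) → ∃ x ∈ W, x ≠ 0 ∧ ∀ i, ∃ c : ℂ, T i x = c • x := by
  intro n
  induction n using Nat.strong_induction_on with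
  | _ n ih =>
    intro W hn hW hinv
    by_cases hsc : ∀ i, ∃ c : ℂ, ∀ x ∈ W, T i x = c • x
    · obtain ⟨x, hx, hx0⟩ := Submodule.exists_mem_ne_zero_of_ne_bot hW
      exact ⟨x, hx, hx0, fun i => (hsc i).imp fun c hc => hc x hx⟩
    · push Not at hsc
      obtain ⟨i, hi⟩ := hsc
      have hnt : Nontrivial W := Submodule.nontrivial_iff_ne_bot.mpr hW
      obtain ⟨μ, hμ⟩ := Module.End.exists_eigenvalue ((T i).restrict (hinv i))
      obtain ⟨y, hy⟩ := hμ.exists_hasEigenvector
      have hy1 : T i (y : V) = μ • (y : V) := congrArg Subtype.val hy.apply_eq_smul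
      have hy0 : (y : V) ≠ 0 := fun h => hy.2 (Subtype.ext h)
      let W' : Submodule ℂ V := W ⊓ Module.End.eigenspace (T i) μ
      have hW'bot : W' ≠ ⊥ := by
        intro h
        have : (y : V) ∈ W' := ⟨y.2, Module.End.mem_eigenspace_iff.mpr hy1⟩
        rw [h] at this
        exact hy0 (by simpa only [ZeroMemClass.coe_eq_zero, Submodule.mem_bot] using this)
      have hW'lt : W' < W := by
        refine lt_of_le_of_ne inf_le_left (fun h => ?_)
        obtain ⟨x, hx, hx'⟩ := hi μ
        have hx2 : x ∈ W' := by rw [h]; exact hx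
        exact hx' (Module.End.mem_eigenspace_iff.mp hx2.2)
      have hlt : Module.finrank ℂ W' < n := hn ▸ Submodule.finrank_lt_finrank_of_lt hW'lt
      have hinv' : ∀ j, ∀ x ∈ W', T j x ∈ W' := by
        intro j x hx
        refine ⟨hinv j x hx.1, Module.End.mem_eigenspace_iff.mpr ?_⟩
        have h1 : T i x = μ • x := Module.End.mem_eigenspace_iff.mp hx.2
        have h2 : T i (T j x) = T j (T i x) := by
          have := congrArg (fun L : Module.End ℂ V => L x) (hc i j)
          exact this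
        rw [h2, h1, map_smul]
      obtain ⟨x, hx, hx0, hxi⟩ := ih _ hlt W' rfl hW'bot hinv'
      exact ⟨x, hx.1, hx0, hxi⟩

end Vale.Agent.P284
end
end

section

section

namespace Vale.Agent.P284

open Function

universe u v w

section

variable {Q : Type u} [Group Q] {N : Subgroup Q} {φ : Q → ℂ}

theorem add_one (hφ : ∀ a ∈ N, ∀ b ∈ N, φ (a * b) = φ a + φ b) : φ 1 = 0 := by
  have := hφ 1 N.one_mem 1 N.one_mem
  rw [one_mul] at this
  simpa using this

theorem add_pow (hφ : ∀ a ∈ N, ∀ b ∈ N, φ (a * b) = φ a + φ b) {a : Q} (ha : a ∈ N) (m : ℕ) :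
    φ (a ^ m) = m * φ a := by
  induction m with
  | zero => simpa using add_one hφ
  | succ m ih =>
    rw [pow_succ, hφ _ (N.pow_mem ha m) _ ha, ih]
    push_cast
    ring

theorem add_inv (hφ : ∀ a ∈ N, ∀ b ∈ N, φ (a * b) = φ a + φ b) {a : Q} (ha : a ∈ N) :
    φ a⁻¹ = - φ a := by
  have := hφ a ha a⁻¹ (N.inv_mem ha)
  rw [mul_inv_cancel, add_one hφ] at this
  linear_combination -this

/-- The affine step: the character becomes trivial on a finite-index subgroup. -/
theorem char_trivial (hN : N.Normal) (hφ : ∀ a ∈ N, ∀ b ∈ N, φ (a * b) = φ a + φ b)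
    (n₀ : Q) (hn₀ : n₀ ∈ N) (hφ₀ : φ n₀ ≠ 0)
    (Q₁ : Subgroup Q) (hQ₁ : Q₁.FiniteIndex) (hNQ : N ≤ Q₁)
    (hcomm : ∀ a ∈ Q₁, ∀ b ∈ Q₁, a * b * a⁻¹ * b⁻¹ ∈ N)
    (χ : Q → ℂ) (hχ : ∀ q ∈ Q₁, ∀ n ∈ N, φ (q * n * q⁻¹) = χ q * φ n)
    (hlin : LinVirtAb Q) :
    ∃ Q₂ : Subgroup Q, Q₂.FiniteIndex ∧ Q₂ ≤ Q₁ ∧ ∀ q ∈ Q₂, χ q = 1 := by
  classical
  by_cases htriv : ∀ q ∈ Q₁, χ q = 1
  · exact ⟨Q₁, hQ₁, le_refl _, htriv⟩
  push Not at htriv
  obtain ⟨t, ht, hχt⟩ := htriv
  have hχt' : χ t - 1 ≠ 0 := sub_ne_zero.mpr hχt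
  -- multiplicativity of χ
  have hχmul : ∀ a ∈ Q₁, ∀ b ∈ Q₁, χ (a * b) = χ a * χ b := by
    intro a ha b hb
    have h1 := hχ (a * b) (Q₁.mul_mem ha hb) n₀ hn₀
    have h2 := hχ a ha (b * n₀ * b⁻¹) (hN.conj_mem _ hn₀ b)
    rw [hχ b hb n₀ hn₀] at h2
    have h3 : a * b * n₀ * (a * b)⁻¹ = a * (b * n₀ * b⁻¹) * a⁻¹ := by group
    rw [h3, h2] at h1
    have h4 : (χ a * χ b - χ (a * b)) * φ n₀ = 0 := by linear_combination h1
    rcases mul_eq_zero.mp h4 with h | h
    · exact (sub_eq_zero.mp h).symm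
    · exact absurd h hφ₀
  have hχ1 : χ 1 = 1 := by
    have h1 := hχ 1 Q₁.one_mem n₀ hn₀
    have h2 : (1 : Q) * n₀ * 1⁻¹ = n₀ := by group
    rw [h2] at h1
    have h4 : (χ 1 - 1) * φ n₀ = 0 := by linear_combination -h1
    rcases mul_eq_zero.mp h4 with h | h
    · exact sub_eq_zero.mp h
    · exact absurd h hφ₀
  have hχN : ∀ n ∈ N, χ n = 1 := by
    intro n hn
    have h1 := hχ n (hNQ hn) n₀ hn₀
    rw [hφ _ (N.mul_mem hn hn₀) _ (N.inv_mem hn), hφ _ hn _ hn₀, add_inv hφ hn] at h1
    have h4 : (χ n - 1) * φ n₀ = 0 := by linear_combination -h1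
    rcases mul_eq_zero.mp h4 with h | h
    · exact sub_eq_zero.mp h
    · exact absurd h hφ₀
  let δ : Q → ℂ := fun h => φ (t * h * t⁻¹ * h⁻¹) / (χ t - 1)
  have hδmul : ∀ a ∈ Q₁, ∀ b ∈ Q₁, δ (a * b) = δ a + χ a * δ b := by
    intro a ha b hb
    have h1 : t * (a * b) * t⁻¹ * (a * b)⁻¹ = (t * a * t⁻¹ * a⁻¹) * (a * (t * b * t⁻¹ * b⁻¹) * a⁻¹) := by
      group
    have h2 := hcomm t ht a ha
    have h3 := hcomm t ht b hb
    simp only [δ]
    rw [h1, hφ _ h2 _ (hN.conj_mem _ h3 a), hχ a ha _ h3]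
    field_simp
  have hδN : ∀ n ∈ N, δ n = φ n := by
    intro n hn
    simp only [δ]
    rw [hφ _ (hN.conj_mem _ hn t) _ (N.inv_mem hn), hχ t ht n hn, add_inv hφ hn]
    field_simp
    ring
  have hδ1 : δ 1 = 0 := by
    rw [hδN 1 N.one_mem, add_one hφ]
  let σ : Q₁ →* Module.End ℂ (ℂ × ℂ) :=
    { toFun := fun h =>
        { toFun := fun p => (χ h * p.1 + δ h * p.2, p.2)
          map_add' := by
            intro p p'
            ext <;> simp only [Prod.fst_add, Prod.snd_add, Prod.mk_add_mk]
            ring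
          map_smul' := by
            intro c p
            ext <;> simp only [Prod.smul_fst, smul_eq_mul, Prod.smul_snd, RingHom.id_apply, Prod.smul_mk]
            ring }
      map_one' := by
        apply LinearMap.ext
        intro p
        ext <;> simp only [OneMemClass.coe_one, hχ1, one_mul, hδ1, zero_mul, add_zero, Prod.mk.eta, LinearMap.coe_mk, AddHom.coe_mk, Module.End.one_apply]
      map_mul' := by
        intro a b
        apply LinearMap.ext
        intro p
        ext
        · simp only [Subgroup.coe_mul, hχmul a a.2 b b.2, hδmul a a.2 b b.2, LinearMap.coe_mk, AddHom.coe_mk, Module.End.mul_apply]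
          ring
        · simp only [Subgroup.coe_mul, LinearMap.coe_mk, AddHom.coe_mk, Module.End.mul_apply] }
  have hσ : ∀ (h : Q₁) (p : ℂ × ℂ), σ h p = (χ h * p.1 + δ h * p.2, p.2) := fun _ _ => rfl
  obtain ⟨A, hA, hab⟩ := repVA_of_lin (hlin.subgroup Q₁ hQ₁) (ℂ × ℂ) σ
  refine ⟨A.map Q₁.subtype, finiteIndex_map_subtype Q₁ hQ₁ A hA, ?_, ?_⟩
  · rintro _ ⟨a, _, rfl⟩
    exact a.2
  · rintro _ ⟨h, hh, rfl⟩
    obtain ⟨m, hm0, hm⟩ := Subgroup.exists_pow_mem_of_index_ne_zero hA.index_ne_zero ⟨n₀, hNQ hn₀⟩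
    have hnm : n₀ ^ m ∈ N := N.pow_mem hn₀ m
    have hc := congrArg (fun L : Module.End ℂ (ℂ × ℂ) => (L (0, 1)).1)
      (hab h hh _ hm.2)
    have e1 : ((σ h * σ (⟨n₀, hNQ hn₀⟩ ^ m)) (0, 1)).1 = χ h * δ (n₀ ^ m) + δ h := by
      rw [Module.End.mul_apply, hσ, hσ]
      simp only [SubmonoidClass.mk_pow, mul_zero, mul_one, zero_add]
    have e2 : ((σ (⟨n₀, hNQ hn₀⟩ ^ m) * σ h) (0, 1)).1 = χ (n₀ ^ m) * δ h + δ (n₀ ^ m) := by
      rw [Module.End.mul_apply, hσ, hσ]
      simp
    have hc' : χ h * δ (n₀ ^ m) + δ h = χ (n₀ ^ m) * δ h + δ (n₀ ^ m) := by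
      rw [← e1, ← e2]
      exact hc
    rw [hχN _ hnm, hδN _ hnm, add_pow hφ hn₀] at hc'
    have hmne : (m : ℂ) * φ n₀ ≠ 0 := mul_ne_zero (Nat.cast_ne_zero.mpr (by omega)) hφ₀
    have h4 : (χ h - 1) * ((m : ℂ) * φ n₀) = 0 := by linear_combination hc'
    rcases mul_eq_zero.mp h4 with h' | h'
    · exact sub_eq_zero.mp h'
    · exact absurd h' hmne

end

end Vale.Agent.P284
end
end

section

section

namespace Vale.Agent.P284

open Function

universe u v w

/-- Data for the Heisenberg step. -/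
structure HData (P : Type u) [Group P] (N : Subgroup P) (φ : P → ℂ) : Prop where
  normal : N.Normal
  add : ∀ a ∈ N, ∀ b ∈ N, φ (a * b) = φ a + φ b
  inv : ∀ q : P, ∀ n ∈ N, φ (q * n * q⁻¹) = φ n
  comm : ∀ a b : P, a * b * a⁻¹ * b⁻¹ ∈ N

section

variable {P : Type u} [Group P] {N : Subgroup P} {φ : P → ℂ}

/-- The commutator pairing. -/
def cp (φ : P → ℂ) (a b : P) : ℂ := φ (a * b * a⁻¹ * b⁻¹)

theorem cp_mul_left (D : HData P N φ) (a a' b : P) : cp φ (a * a') b = cp φ a b + cp φ a' b := by
  unfold cp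
  have h1 : a * a' * b * (a * a')⁻¹ * b⁻¹ =
      (a * (a' * b * a'⁻¹ * b⁻¹) * a⁻¹) * (a * b * a⁻¹ * b⁻¹) := by group
  rw [h1, D.add _ (D.normal.conj_mem _ (D.comm a' b) a) _ (D.comm a b), D.inv a _ (D.comm a' b)]
  ring

theorem cp_swap (D : HData P N φ) (a b : P) : cp φ b a = - cp φ a b := by
  unfold cp
  have h1 : b * a * b⁻¹ * a⁻¹ = (a * b * a⁻¹ * b⁻¹)⁻¹ := by group
  rw [h1, add_inv D.add (D.comm a b)]

theorem cp_mul_right (D : HData P N φ) (a b b' : P) : cp φ a (b * b') = cp φ a b + cp φ a b' := by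
  rw [cp_swap D (b * b') a, cp_mul_left D, cp_swap D a b, cp_swap D a b']
  ring

theorem cp_self (D : HData P N φ) (a : P) : cp φ a a = 0 := by
  have := cp_swap D a a
  have h2 : (2 : ℂ) * cp φ a a = 0 := by linear_combination this
  simpa using h2

theorem cp_one_left (D : HData P N φ) (b : P) : cp φ 1 b = 0 := by
  have := cp_mul_left D 1 1 b
  rw [one_mul] at this
  linear_combination -this

theorem cp_one_right (D : HData P N φ) (b : P) : cp φ b 1 = 0 := by
  rw [cp_swap D 1 b, cp_one_left D, neg_zero]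

theorem cp_inv_left (D : HData P N φ) (a b : P) : cp φ a⁻¹ b = - cp φ a b := by
  have := cp_mul_left D a⁻¹ a b
  rw [inv_mul_cancel, cp_one_left D] at this
  linear_combination -this

theorem cp_inv_right (D : HData P N φ) (a b : P) : cp φ a b⁻¹ = - cp φ a b := by
  rw [cp_swap D b⁻¹ a, cp_inv_left D, cp_swap D a b, neg_neg]

theorem cp_left_mem (D : HData P N φ) {n : P} (hn : n ∈ N) (b : P) : cp φ n b = 0 := by
  unfold cp
  have h1 : n * b * n⁻¹ * b⁻¹ = n * (b * n⁻¹ * b⁻¹) := by group
  rw [h1, D.add _ hn _ (D.normal.conj_mem _ (N.inv_mem hn) b), D.inv b _ (N.inv_mem hn),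
    add_inv D.add hn]
  ring

theorem cp_pow_left (D : HData P N φ) (a b : P) (m : ℕ) : cp φ (a ^ m) b = m * cp φ a b := by
  induction m with
  | zero => simpa using cp_one_left D b
  | succ m ih =>
    rw [pow_succ, cp_mul_left D, ih]
    push_cast
    ring

theorem cp_pow_right (D : HData P N φ) (a b : P) (m : ℕ) : cp φ a (b ^ m) = m * cp φ a b := by
  rw [cp_swap D (b ^ m) a, cp_pow_left D, cp_swap D a b]
  ring

/-- The twisted group. -/
@[ext]
structure TG (P : Type u) where
  /-- first coordinate -/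
  g : P
  /-- second coordinate -/
  s : ℂ

/-- The group structure on the twisted group. -/
@[reducible]
noncomputable def tgGroup (D : HData P N φ) : Group (TG P) :=
  @Group.ofLeftAxioms (TG P) ⟨fun x y => ⟨x.g * y.g, x.s + y.s + cp φ x.g y.g / 2⟩⟩
    ⟨fun x => ⟨x.g⁻¹, - x.s⟩⟩ ⟨⟨1, 0⟩⟩
    (by
      intro a b c
      apply TG.ext
      · exact mul_assoc a.g b.g c.g
      · change a.s + b.s + cp φ a.g b.g / 2 + c.s + cp φ (a.g * b.g) c.g / 2 =
          a.s + (b.s + c.s + cp φ b.g c.g / 2) + cp φ a.g (b.g * c.g) / 2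
        rw [cp_mul_left D, cp_mul_right D]
        ring)
    (by
      intro a
      apply TG.ext
      · exact one_mul a.g
      · change 0 + a.s + cp φ 1 a.g / 2 = a.s
        rw [cp_one_left D]
        ring)
    (by
      intro a
      apply TG.ext
      · exact inv_mul_cancel a.g
      · change - a.s + a.s + cp φ a.g⁻¹ a.g / 2 = 0
        rw [cp_inv_left D, cp_self D]
        ring)

/-- Existence of the quadratic function. -/
theorem exists_quad (D : HData P N φ) :
    ∃ z : P → ℂ, ∀ g h : P, z (g * h) = z g + z h + cp φ g h / 2 := by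
  classical
  let _ : Group (TG P) := tgGroup D
  have hmul : ∀ x y : TG P, x * y = ⟨x.g * y.g, x.s + y.s + cp φ x.g y.g / 2⟩ := fun _ _ => rfl
  have hone : (1 : TG P) = ⟨1, 0⟩ := rfl
  have hinv : ∀ x : TG P, x⁻¹ = ⟨x.g⁻¹, - x.s⟩ := fun _ => rfl
  let S : Subgroup (TG P) :=
    { carrier := {x | x.g ∈ N ∧ x.s = φ x.g}
      mul_mem' := by
        rintro x y ⟨hx, hx'⟩ ⟨hy, hy'⟩
        refine ⟨N.mul_mem hx hy, ?_⟩
        change x.s + y.s + cp φ x.g y.g / 2 = φ (x.g * y.g)
        rw [cp_left_mem D hx, D.add _ hx _ hy, hx', hy']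
        ring
      one_mem' := ⟨N.one_mem, (add_one D.add).symm⟩
      inv_mem' := by
        rintro x ⟨hx, hx'⟩
        refine ⟨N.inv_mem hx, ?_⟩
        change - x.s = φ x.g⁻¹
        rw [add_inv D.add hx, hx'] }
  have hcomm : commutator (TG P) ≤ S := by
    rw [commutator_def, Subgroup.commutator_le]
    intro x _ y _
    rw [commutatorElement_def, hinv x, hinv y, hmul x y, hmul, hmul]
    refine ⟨D.comm x.g y.g, ?_⟩
    change x.s + y.s + cp φ x.g y.g / 2 + -x.s + cp φ (x.g * y.g) x.g⁻¹ / 2 + -y.s +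
      cp φ (x.g * y.g * x.g⁻¹) y.g⁻¹ / 2 = cp φ x.g y.g
    rw [cp_inv_right D, cp_inv_right D, cp_mul_left D, cp_mul_left D, cp_mul_left D, cp_self D,
      cp_self D, cp_inv_left D, cp_swap D x.g y.g]
    ring
  let j : TG P →* Abelianization (TG P) := Abelianization.of
  let ι : ℂ →+ Additive (Abelianization (TG P)) :=
    { toFun := fun s => Additive.ofMul (j ⟨1, s⟩)
      map_zero' := by
        change Additive.ofMul (j 1) = 0
        rw [map_one]
        rfl
      map_add' := by
        intro s t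
        have : (⟨1, s + t⟩ : TG P) = ⟨1, s⟩ * ⟨1, t⟩ := by
          rw [hmul]
          simp [cp_one_left D]
        rw [this, map_mul]
        rfl }
  have hι : Injective ι := by
    rw [injective_iff_map_eq_zero]
    intro s hs
    have h1 : j ⟨1, s⟩ = 1 := hs
    have h2 : (⟨1, s⟩ : TG P) ∈ commutator (TG P) := by
      rw [← Abelianization.ker_of]
      exact h1
    have h3 := hcomm h2
    have h4 : s = φ 1 := h3.2
    rw [h4, add_one D.add]
  obtain ⟨ψ, hψ⟩ := (Module.Baer.of_divisible ℂ).extension_property_addMonoidHom ι hι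
    (AddMonoidHom.id ℂ)
  have hψs : ∀ s : ℂ, ψ (Additive.ofMul (j ⟨1, s⟩)) = s := fun s => by
    have := congrArg (fun L : ℂ →+ ℂ => L s) hψ
    exact this
  refine ⟨fun g => - ψ (Additive.ofMul (j ⟨g, 0⟩)), ?_⟩
  intro g h
  have h1 : (⟨g, 0⟩ : TG P) * ⟨h, 0⟩ = ⟨g * h, 0⟩ * ⟨1, cp φ g h / 2⟩ := by
    rw [hmul, hmul]
    apply TG.ext
    · simp
    · change (0 : ℂ) + 0 + cp φ g h / 2 = 0 + cp φ g h / 2 + cp φ (g * h) 1 / 2
      rw [cp_one_right D]
      ring
  have h2 := congrArg (fun x => ψ (Additive.ofMul (j x))) h1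
  simp only [map_mul, ofMul_mul, map_add] at h2
  rw [hψs] at h2
  linear_combination h2

theorem fd_hom (hP : Group.FG P) : FiniteDimensional ℂ (Additive P →+ ℂ) := by
  obtain ⟨S, hS⟩ := hP.1
  let ev : (Additive P →+ ℂ) →ₗ[ℂ] (S → ℂ) :=
    { toFun := fun F s => F (Additive.ofMul (s : P))
      map_add' := fun _ _ => rfl
      map_smul' := fun _ _ => rfl }
  refine Module.Finite.of_injective ev ?_
  intro F F' h
  have h1 : ∀ x : P, x ∈ Subgroup.closure (S : Set P) →
      F (Additive.ofMul x) = F' (Additive.ofMul x) := by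
    intro x hx
    induction hx using Subgroup.closure_induction with
    | mem x hx => exact congrFun h ⟨x, hx⟩
    | one => simp only [ofMul_one, map_zero]
    | mul x y _ _ hx hy => rw [ofMul_mul, map_add, map_add, hx, hy]
    | inv x _ hx => rw [ofMul_inv, map_neg, map_neg, hx]
  ext x
  have : (Additive.toMul x) ∈ Subgroup.closure (S : Set P) := by
    rw [hS]
    trivial
  exact h1 _ this

/-- The Heisenberg step: the commutator pairing vanishes. -/
theorem pairing_zero (D : HData P N φ) (hP : Group.FG P) (hlin : LinVirtAb P) (a b : P) :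
    cp φ a b = 0 := by
  classical
  obtain ⟨z, hz⟩ := exists_quad D
  have hfd := fd_hom hP
  have hz1 : z 1 = 0 := by
    have := hz 1 1
    rw [one_mul, cp_one_left D] at this
    linear_combination -this
  let c : P → (Additive P →+ ℂ) := fun h =>
    { toFun := fun g => cp φ (Additive.toMul g) h / 2
      map_zero' := by
        change cp φ 1 h / 2 = 0
        rw [cp_one_left D]
        simp
      map_add' := by
        intro x y
        change cp φ (Additive.toMul x * Additive.toMul y) h / 2 = _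
        rw [cp_mul_left D]
        ring }
  have hc : ∀ g h : P, c h (Additive.ofMul g) = cp φ g h / 2 := fun _ _ => rfl
  have hcmul : ∀ g h : P, c (g * h) = c g + c h := by
    intro g h
    ext x
    change cp φ (Additive.toMul x) (g * h) / 2 =
      cp φ (Additive.toMul x) g / 2 + cp φ (Additive.toMul x) h / 2
    rw [cp_mul_right D]
    ring
  have hc1 : c 1 = 0 := by
    ext x
    change cp φ (Additive.toMul x) 1 / 2 = 0
    rw [cp_one_right D]
    simp
  let σ : P →* Module.End ℂ (ℂ × (Additive P →+ ℂ) × ℂ) :=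
    { toFun := fun h =>
        { toFun := fun p => (p.1 + p.2.1 (Additive.ofMul h) + p.2.2 * z h,
            p.2.1 + p.2.2 • c h, p.2.2)
          map_add' := by
            intro p p'
            refine Prod.ext ?_ (Prod.ext ?_ rfl)
            · simp only [Prod.fst_add, Prod.snd_add, AddMonoidHom.add_apply, Prod.mk_add_mk]
              ring
            · simp only [Prod.snd_add, Prod.fst_add, add_smul, Prod.mk_add_mk]
              abel
          map_smul' := by
            intro k p
            refine Prod.ext ?_ (Prod.ext ?_ rfl)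
            · simp only [Prod.smul_fst, smul_eq_mul, Prod.smul_snd, AddMonoidHom.smul_apply, RingHom.id_apply, Prod.smul_mk, smul_add]
              ring
            · simp only [Prod.smul_snd, Prod.smul_fst, smul_eq_mul, mul_smul, RingHom.id_apply, Prod.smul_mk, smul_add] }
      map_one' := by
        apply LinearMap.ext
        intro p
        refine Prod.ext ?_ (Prod.ext ?_ rfl)
        · simp only [ofMul_one, map_zero, add_zero, hz1, mul_zero, LinearMap.coe_mk, AddHom.coe_mk, Module.End.one_apply]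
        · simp only [ofMul_one, map_zero, add_zero, hc1, smul_zero, Prod.mk.eta, LinearMap.coe_mk, AddHom.coe_mk, Module.End.one_apply]
      map_mul' := by
        intro g h
        apply LinearMap.ext
        intro p
        refine Prod.ext ?_ (Prod.ext ?_ rfl)
        · simp only [ofMul_mul, map_add, hz, LinearMap.coe_mk, AddHom.coe_mk, Module.End.mul_apply, AddMonoidHom.add_apply, AddMonoidHom.smul_apply, hc, smul_eq_mul]
          ring
        · simp only [ofMul_mul, map_add, hcmul, smul_add, LinearMap.coe_mk, AddHom.coe_mk, Module.End.mul_apply, AddMonoidHom.add_apply, AddMonoidHom.smul_apply, smul_eq_mul]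
          abel }
  have hσ : ∀ (h : P) (p : ℂ × (Additive P →+ ℂ) × ℂ), σ h p =
    (p.1 + p.2.1 (Additive.ofMul h) + p.2.2 * z h, p.2.1 + p.2.2 • c h, p.2.2) := fun _ _ => rfl
  obtain ⟨A, hA, hab⟩ := repVA_of_lin hlin (ℂ × (Additive P →+ ℂ) × ℂ) σ
  obtain ⟨m, hm0, hm⟩ := Subgroup.exists_pow_mem_of_index_ne_zero hA.index_ne_zero a
  obtain ⟨m', hm0', hm'⟩ := Subgroup.exists_pow_mem_of_index_ne_zero hA.index_ne_zero b
  have h1 := congrArg (fun L : Module.End ℂ (ℂ × (Additive P →+ ℂ) × ℂ) => (L (0, 0, 1)).1)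
    (hab _ hm.2 _ hm'.2)
  have e : ∀ x y : P, ((σ x * σ y) (0, 0, 1)).1 = z y + cp φ x y / 2 + z x := by
    intro x y
    rw [Module.End.mul_apply, hσ, hσ]
    simp only [AddMonoidHom.zero_apply, add_zero, one_mul, zero_add, one_smul, hc]
  have h2 : z (b ^ m') + cp φ (a ^ m) (b ^ m') / 2 + z (a ^ m) =
      z (a ^ m) + cp φ (b ^ m') (a ^ m) / 2 + z (b ^ m') := by
    rw [← e, ← e]
    exact h1
  rw [cp_swap D (a ^ m) (b ^ m'), cp_pow_left D, cp_pow_right D] at h2
  have h3 : ((m : ℂ) * m') * cp φ a b = 0 := by linear_combination h2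
  have hmm : ((m : ℂ) * m') ≠ 0 :=
    mul_ne_zero (Nat.cast_ne_zero.mpr (by omega)) (Nat.cast_ne_zero.mpr (by omega))
  rcases mul_eq_zero.mp h3 with h | h
  · exact absurd h hmm
  · exact h

end

end Vale.Agent.P284
end
end

section

section

namespace Vale.Agent.P284

open Function

universe u v w

/-- An element of infinite order in a finitely generated abelian group is detected by a
homomorphism to the integers. -/
theorem exists_hom_int {B : Type u} [CommGroup B] [hB : Group.FG B] (b : B)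
    (hb : ∀ j : ℕ, b ^ j = 1 → j = 0) : ∃ ψ : B →* Multiplicative ℤ, ψ b ≠ 1 := by
  have hfin : Module.Finite ℤ (Additive B) := Module.Finite.iff_addGroup_fg.mpr inferInstance
  let T := Submodule.torsion ℤ (Additive B)
  have hfree : Module.Free ℤ (Additive B ⧸ T) := inferInstance
  have hb0 : (Submodule.Quotient.mk (Additive.ofMul b) : Additive B ⧸ T) ≠ 0 := by
    intro h
    rw [Submodule.Quotient.mk_eq_zero] at h
    obtain ⟨a, ha⟩ := (Submodule.mem_torsion_iff _).mp h
    have ha0 : (a : ℤ) ≠ 0 := nonZeroDivisors.ne_zero a.2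
    have h1 : (a : ℤ) • (Additive.ofMul b) = 0 := ha
    have h2 : ((a : ℤ).natAbs) • (Additive.ofMul b) = 0 := by
      rcases Int.natAbs_eq (a : ℤ) with h' | h'
      · rw [h', natCast_zsmul] at h1
        exact h1
      · rw [h', neg_smul, natCast_zsmul, neg_eq_zero] at h1
        exact h1
    have h3 : b ^ ((a : ℤ).natAbs) = 1 := h2
    exact ha0 (Int.natAbs_eq_zero.mp (hb _ h3))
  let bas := Module.Free.chooseBasis ℤ (Additive B ⧸ T)
  have h4 : ∃ i, bas.coord i (Submodule.Quotient.mk (Additive.ofMul b)) ≠ 0 := by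
    by_contra hcon
    push Not at hcon
    exact hb0 ((Module.Basis.forall_coord_eq_zero_iff bas).mp hcon)
  obtain ⟨i, hi⟩ := h4
  let F : Additive B →+ ℤ :=
    ((bas.coord i).toAddMonoidHom).comp (T.mkQ.toAddMonoidHom)
  refine ⟨AddMonoidHom.toMultiplicativeRight F, ?_⟩
  intro h
  apply hi
  exact h

theorem finite_ker_lift {Q : Type u} [Group Q] {A : Type v} [Group A] (f : Q →* A)
    (N : Subgroup Q) [N.Normal] (hNK : N ≤ f.ker) (hfin : (N.subgroupOf f.ker).FiniteIndex) :
    Finite (QuotientGroup.lift N f hNK).ker := by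
  let h : f.ker →* Q ⧸ N := (QuotientGroup.mk' N).comp f.ker.subtype
  have hker : h.ker = N.subgroupOf f.ker := by
    ext x
    simp only [MonoidHom.mem_ker, MonoidHom.coe_comp, QuotientGroup.coe_mk', Subgroup.coe_subtype, comp_apply, QuotientGroup.eq_one_iff, Subgroup.mem_subgroupOf, h]
  have hfi : h.ker.FiniteIndex := by rw [hker]; exact hfin
  have hq : Finite (f.ker ⧸ h.ker) := inferInstance
  have hr : Finite h.range := Finite.of_equiv _ (QuotientGroup.quotientKerEquivRange h).toEquiv
  have hsub : (((QuotientGroup.lift N f hNK).ker : Subgroup (Q ⧸ N)) : Set (Q ⧸ N)) ⊆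
      (h.range : Set (Q ⧸ N)) := by
    intro x hx
    obtain ⟨q, rfl⟩ := QuotientGroup.mk_surjective x
    have hq' : f q = 1 := by simpa [MonoidHom.mem_ker] using hx
    exact ⟨⟨q, hq'⟩, rfl⟩
  exact Set.Finite.subset (s := (h.range : Set (Q ⧸ N))) hr hsub

theorem ker_finite {Q : Type u} [Group Q] {r : ℕ} (f : Q →* Multiplicative (Fin r → ℤ))
    (hf : Surjective f) (hK : f.ker.FG) (hlin : LinVirtAb Q)
    (hmax : ∀ Q₁ : Subgroup Q, Q₁.FiniteIndex → ∀ ψ : Q₁ →* Multiplicative ℤ, ∀ k : Q₁,
      (k : Q) ∈ f.ker → ψ k = 1)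
    (hVI : Infinite f.ker → VirtInd f.ker) : Finite f.ker := by
  classical
  by_contra hnf
  have hinf : Infinite f.ker := not_finite_iff_infinite.mp hnf
  obtain ⟨L, hL, g, hg⟩ := hVI hinf
  obtain ⟨N, hN, hNK, hNfin, hNL⟩ := exists_normal f.ker hK L hL
  have hAfg : Group.FG (Multiplicative (Fin r → ℤ)) := inferInstance
  have hQfg : Group.FG Q := fg_of_ker_fg hAfg f hf hK
  have hKfg : Group.FG f.ker := (Group.fg_iff_subgroup_fg _).mpr hK
  have hNfg : N.FG := by
    have h1 : Group.FG (N.subgroupOf f.ker) := inferInstance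
    have h2 : Group.FG N :=
      Group.fg_of_surjective (f := (Subgroup.subgroupOfEquivOfLe hNK).toMonoidHom)
        (Subgroup.subgroupOfEquivOfLe hNK).surjective
    exact (Group.fg_iff_subgroup_fg _).mp h2
  obtain ⟨S, hS⟩ := hNfg
  -- the space of additive functions on N
  let W : Submodule ℂ (Q → ℂ) :=
    { carrier := {φ | (∀ x ∉ N, φ x = 0) ∧ ∀ a ∈ N, ∀ b ∈ N, φ (a * b) = φ a + φ b}
      add_mem' := by
        rintro φ φ' ⟨h1, h2⟩ ⟨h1', h2'⟩
        refine ⟨fun x hx => by simp [h1 x hx, h1' x hx], fun a ha b hb => ?_⟩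
        simp only [Pi.add_apply]
        rw [h2 a ha b hb, h2' a ha b hb]
        ring
      zero_mem' := by
        refine ⟨fun _ _ => rfl, fun _ _ _ _ => by simp⟩
      smul_mem' := by
        rintro c φ ⟨h1, h2⟩
        refine ⟨fun x hx => by simp [h1 x hx], fun a ha b hb => ?_⟩
        simp only [Pi.smul_apply, smul_eq_mul]
        rw [h2 a ha b hb]
        ring }
  have hWfd : FiniteDimensional ℂ W := by
    let ev : W →ₗ[ℂ] (S → ℂ) :=
      { toFun := fun F s => F.1 s
        map_add' := fun _ _ => rfl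
        map_smul' := fun _ _ => rfl }
    refine Module.Finite.of_injective ev ?_
    intro F F' h
    have h1 : ∀ x : Q, x ∈ Subgroup.closure (S : Set Q) → F.1 x = F'.1 x := by
      intro x hx
      induction hx using Subgroup.closure_induction with
      | mem x hx => exact congrFun h ⟨x, hx⟩
      | one => rw [add_one F.2.2, add_one F'.2.2]
      | mul x y hx' hy' hx hy =>
        rw [hS] at hx' hy'
        rw [F.2.2 x hx' y hy', F'.2.2 x hx' y hy', hx, hy]
      | inv x hx' hx =>
        rw [hS] at hx'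
        rw [add_inv F.2.2 hx', add_inv F'.2.2 hx', hx]
    apply Subtype.ext
    funext x
    by_cases hx : x ∈ N
    · exact h1 x (by rw [hS]; exact hx)
    · rw [F.2.1 x hx, F'.2.1 x hx]
  -- a nonzero additive function
  have hmemL : ∀ x : Q, ∀ hx : x ∈ N, (⟨x, hNK hx⟩ : f.ker) ∈ L := by
    intro x hx
    apply hNL
    exact Subgroup.mem_subgroupOf.mpr hx
  let φ₀ : Q → ℂ := fun x => if hx : x ∈ N then
    ((Multiplicative.toAdd (g ⟨⟨x, hNK hx⟩, hmemL x hx⟩) : ℤ) : ℂ) else 0
  have hφ₀ : φ₀ ∈ W := by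
    refine ⟨fun x hx => by simp [φ₀, hx], fun a ha b hb => ?_⟩
    have hab : a * b ∈ N := N.mul_mem ha hb
    simp only [φ₀, ha, hb, hab, dif_pos]
    have : (⟨⟨a * b, hNK hab⟩, hmemL _ hab⟩ : L) =
        ⟨⟨a, hNK ha⟩, hmemL _ ha⟩ * ⟨⟨b, hNK hb⟩, hmemL _ hb⟩ := rfl
    rw [this, map_mul, toAdd_mul]
    push_cast
    rfl
  have hφ₀ne : φ₀ ≠ 0 := by
    obtain ⟨l, hl⟩ := hg (Multiplicative.ofAdd 1)
    obtain ⟨m, hm0, hm⟩ := Subgroup.exists_pow_mem_of_index_ne_zero hNfin.index_ne_zero (l : f.ker)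
    have hmN : (((l : f.ker) : Q)) ^ m ∈ N := by
      have := Subgroup.mem_subgroupOf.mp hm.2
      simpa only [SubmonoidClass.coe_pow] using this
    intro h0
    have h1 := congrFun h0 ((((l : f.ker) : Q)) ^ m)
    have h2 : φ₀ ((((l : f.ker) : Q)) ^ m) = (m : ℂ) := by
      simp only [φ₀, hmN, dif_pos]
      have : (⟨⟨(((l : f.ker) : Q)) ^ m, hNK hmN⟩, hmemL _ hmN⟩ : L) = l ^ m := rfl
      rw [this, map_pow, hl, toAdd_pow]
      simp only [toAdd_ofAdd, Int.nsmul_eq_mul, mul_one, Int.cast_natCast]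
    rw [h2] at h1
    have : (m : ℂ) = 0 := h1
    have hm' : m ≠ 0 := by omega
    exact hm' (Nat.cast_eq_zero.mp this)
  -- the abelian-by-N finite-index subgroup
  have hVA : VirtAb (Q ⧸ N) := by
    have := finite_ker_lift f N hNK hNfin
    exact virtAb_of_finite_ker (QuotientGroup.lift N f hNK) this
  obtain ⟨A, hA, hAab⟩ := hVA
  let Q₁ : Subgroup Q := A.comap (QuotientGroup.mk' N)
  have hQ₁ : Q₁.FiniteIndex := finiteIndex_comap _ A hA
  have hNQ₁ : N ≤ Q₁ := by
    intro x hx
    change (QuotientGroup.mk' N x) ∈ A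
    have : QuotientGroup.mk' N x = 1 := by simpa using hx
    rw [this]
    exact A.one_mem
  have hcomm : ∀ a ∈ Q₁, ∀ b ∈ Q₁, a * b * a⁻¹ * b⁻¹ ∈ N := by
    intro a ha b hb
    have h1 := hAab _ ha _ hb
    have h2 : QuotientGroup.mk' N (a * b * a⁻¹ * b⁻¹) = 1 := by
      rw [map_mul, map_mul, map_mul, h1, map_inv, map_inv]
      group
    exact (QuotientGroup.eq_one_iff _).mp h2
  -- conjugation operators
  let T : Q₁ → Module.End ℂ W := fun q =>
    { toFun := fun F => ⟨fun x => F.1 ((q : Q) * x * (q : Q)⁻¹), by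
        refine ⟨fun x hx => F.2.1 _ (fun h => hx ?_), fun a ha b hb => ?_⟩
        · have := hN.conj_mem _ h (q : Q)⁻¹
          have h2 : (q : Q)⁻¹ * ((q : Q) * x * (q : Q)⁻¹) * ((q : Q)⁻¹)⁻¹ = x := by group
          rwa [h2] at this
        · have h2 : (q : Q) * (a * b) * (q : Q)⁻¹ =
            ((q : Q) * a * (q : Q)⁻¹) * ((q : Q) * b * (q : Q)⁻¹) := by group
          change F.1 ((q : Q) * (a * b) * (q : Q)⁻¹) = _
          rw [h2, F.2.2 _ (hN.conj_mem _ ha _) _ (hN.conj_mem _ hb _)]⟩
      map_add' := fun _ _ => rfl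
      map_smul' := fun _ _ => rfl }
  have hT : ∀ (q : Q₁) (F : W) (x : Q), (T q F).1 x = F.1 ((q : Q) * x * (q : Q)⁻¹) :=
    fun _ _ _ => rfl
  have hTcomm : ∀ i j, T i * T j = T j * T i := by
    intro a b
    apply LinearMap.ext
    intro F
    apply Subtype.ext
    funext x
    rw [Module.End.mul_apply, Module.End.mul_apply, hT, hT, hT, hT]
    by_cases hx : x ∈ N
    · set y := (b : Q) * ((a : Q) * x * (a : Q)⁻¹) * (b : Q)⁻¹ with hy
      have hyN : y ∈ N := hN.conj_mem _ (hN.conj_mem _ hx _) _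
      set c := (a : Q) * b * (a : Q)⁻¹ * (b : Q)⁻¹ with hcdef
      have hcN : c ∈ N := hcomm _ a.2 _ b.2
      have h1 : (a : Q) * ((b : Q) * x * (b : Q)⁻¹) * (a : Q)⁻¹ = c * y * c⁻¹ := by
        rw [hcdef, hy]
        group
      rw [h1, F.2.2 _ (N.mul_mem hcN hyN) _ (N.inv_mem hcN), F.2.2 _ hcN _ hyN,
        add_inv F.2.2 hcN]
      ring
    · have aux : ∀ q x : Q, x ∉ N → q * x * q⁻¹ ∉ N := by
        intro q x hx h
        apply hx
        have := hN.conj_mem _ h q⁻¹
        have h2 : q⁻¹ * (q * x * q⁻¹) * (q⁻¹)⁻¹ = x := by group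
        rwa [h2] at this
      rw [F.2.1 _ (aux _ _ (aux _ _ hx)), F.2.1 _ (aux _ _ (aux _ _ hx))]
  have htop : (⊤ : Submodule ℂ W) ≠ ⊥ := by
    intro h
    have h1 : (⟨φ₀, hφ₀⟩ : W) ∈ (⊤ : Submodule ℂ W) := trivial
    rw [h] at h1
    have h2 : (⟨φ₀, hφ₀⟩ : W) = 0 := by simpa only [Submodule.mk_eq_zero, Submodule.mem_bot] using h1
    exact hφ₀ne (congrArg Subtype.val h2)
  obtain ⟨Φ, -, hΦ0, hΦ⟩ := exists_common_eigen T hTcomm _ ⊤ rfl htop (fun _ _ _ => trivial)
  choose cχ hcχ using hΦ
  let φ : Q → ℂ := Φ.1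
  have hφadd : ∀ a ∈ N, ∀ b ∈ N, φ (a * b) = φ a + φ b := Φ.2.2
  let χ : Q → ℂ := fun q => if h : q ∈ Q₁ then cχ ⟨q, h⟩ else 0
  have hχ : ∀ q ∈ Q₁, ∀ n ∈ N, φ (q * n * q⁻¹) = χ q * φ n := by
    intro q hq n _
    have h1 := congrArg (fun F : W => F.1 n) (hcχ ⟨q, hq⟩)
    simp only [χ, hq, dif_pos]
    exact h1
  obtain ⟨n₀, hn₀, hφn₀⟩ : ∃ n₀ ∈ N, φ n₀ ≠ 0 := by
    by_contra hcon
    push Not at hcon
    apply hΦ0
    apply Subtype.ext
    funext x
    by_cases hx : x ∈ N
    · exact hcon x hx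
    · exact Φ.2.1 x hx
  obtain ⟨Q₂, hQ₂, hQ₂₁, hχ1⟩ := char_trivial hN hφadd n₀ hn₀ hφn₀ Q₁ hQ₁ hNQ₁ hcomm χ hχ hlin
  -- the Heisenberg step
  let N₂ : Subgroup Q₂ := N.subgroupOf Q₂
  let φ₂ : Q₂ → ℂ := fun x => φ x
  have hD : HData Q₂ N₂ φ₂ :=
    { normal := inferInstance
      add := by
        intro a ha b hb
        exact hφadd _ (Subgroup.mem_subgroupOf.mp ha) _ (Subgroup.mem_subgroupOf.mp hb)
      inv := by
        intro q n hn
        have := hχ q (hQ₂₁ q.2) n (Subgroup.mem_subgroupOf.mp hn)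
        rw [hχ1 q q.2, one_mul] at this
        exact this
      comm := by
        intro a b
        exact Subgroup.mem_subgroupOf.mpr (hcomm a (hQ₂₁ a.2) b (hQ₂₁ b.2)) }
  have hQ₂fg : Group.FG Q₂ := inferInstance
  have hpz := pairing_zero hD hQ₂fg (hlin.subgroup Q₂ hQ₂)
  obtain ⟨m, hm0, hm⟩ := Subgroup.exists_pow_mem_of_index_ne_zero hQ₂.index_ne_zero n₀
  let n₁ : Q₂ := ⟨n₀ ^ m, hm.2⟩
  have hn₁N : n₁ ∈ N₂ := Subgroup.mem_subgroupOf.mpr (N.pow_mem hn₀ m)
  have hφn₁ : φ₂ n₁ ≠ 0 := by
    change φ (n₀ ^ m) ≠ 0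
    rw [add_pow hφadd hn₀]
    exact mul_ne_zero (Nat.cast_ne_zero.mpr (by omega)) hφn₀
  let M : Subgroup Q₂ :=
    { carrier := {x | x ∈ N₂ ∧ φ₂ x = 0}
      mul_mem' := by
        rintro a b ⟨ha, ha'⟩ ⟨hb, hb'⟩
        exact ⟨N₂.mul_mem ha hb, by rw [hD.add a ha b hb, ha', hb', add_zero]⟩
      one_mem' := ⟨N₂.one_mem, add_one hD.add⟩
      inv_mem' := by
        rintro a ⟨ha, ha'⟩
        exact ⟨N₂.inv_mem ha, by rw [add_inv hD.add ha, ha', neg_zero]⟩ }
  have hMcomm : commutator Q₂ ≤ M := by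
    rw [commutator_def, Subgroup.commutator_le]
    intro a _ b _
    exact ⟨hD.comm a b, hpz a b⟩
  have hord : ∀ j : ℕ, (Abelianization.of n₁) ^ j = 1 → j = 0 := by
    intro j hj
    rw [← map_pow, ← MonoidHom.mem_ker, Abelianization.ker_of] at hj
    have h1 := (hMcomm hj).2
    rw [add_pow hD.add hn₁N] at h1
    rcases mul_eq_zero.mp h1 with h | h
    · exact Nat.cast_eq_zero.mp h
    · exact absurd h hφn₁
  have hAbfg : Group.FG (Abelianization Q₂) :=
    Group.fg_of_surjective (f := Abelianization.of) (QuotientGroup.mk_surjective)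
  obtain ⟨ψ, hψ⟩ := exists_hom_int (Abelianization.of n₁) hord
  exact hψ (hmax Q₂ hQ₂ (ψ.comp Abelianization.of) n₁ (hNK (Subgroup.mem_subgroupOf.mp hn₁N)))

end Vale.Agent.P284
end
end

section

section

namespace Vale.Agent.P284

open Function

universe u v w

theorem exists_surj_int {L : Type u} [Group L] (ψ : L →* Multiplicative ℤ) (x : L)
    (hx : ψ x ≠ 1) : ∃ f : L →* Multiplicative ℤ, Surjective f := by
  have hcyc : IsCyclic ψ.range := inferInstance
  obtain ⟨a, ha⟩ := (Subgroup.isCyclic_iff_exists_zpowers_eq_top ψ.range).mp hcyc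
  have ha1 : a ≠ 1 := by
    rintro rfl
    have : ψ x ∈ Subgroup.zpowers (1 : Multiplicative ℤ) := by
      rw [ha]
      exact ⟨x, rfl⟩
    rw [Subgroup.zpowers_one_eq_bot, Subgroup.mem_bot] at this
    exact hx this
  have ha0 : Multiplicative.toAdd a ≠ 0 := ha1
  have hdvd : ∀ y : L, Multiplicative.toAdd a ∣ Multiplicative.toAdd (ψ y) := by
    intro y
    have : ψ y ∈ Subgroup.zpowers a := by
      rw [ha]
      exact ⟨y, rfl⟩
    obtain ⟨k, hk⟩ := Subgroup.mem_zpowers_iff.mp this
    refine ⟨k, ?_⟩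
    rw [← hk, toAdd_zpow, smul_eq_mul, mul_comm]
  refine ⟨{ toFun := fun y => Multiplicative.ofAdd
              (Multiplicative.toAdd (ψ y) / Multiplicative.toAdd a)
            map_one' := by simp only [map_one, toAdd_one, EuclideanDomain.zero_div, ofAdd_zero]
            map_mul' := by
              intro y z
              rw [map_mul, toAdd_mul, Int.add_ediv_of_dvd_left (hdvd y)]
              rfl }, ?_⟩
  intro k
  have hak : a ^ (Multiplicative.toAdd k) ∈ ψ.range := by
    rw [← ha]
    exact Subgroup.zpow_mem_zpowers a _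
  obtain ⟨y, hy⟩ := hak
  refine ⟨y, ?_⟩
  change Multiplicative.ofAdd (Multiplicative.toAdd (ψ y) / Multiplicative.toAdd a) = k
  rw [hy, toAdd_zpow, smul_eq_mul, Int.mul_ediv_cancel _ ha0]
  rfl

theorem VirtInd.of_surjective {G : Type u} {H : Type v} [Group G] [Group H] (f : G →* H)
    (hf : Surjective f) (h : VirtInd H) : VirtInd G := by
  obtain ⟨L, hL, g, hg⟩ := h
  refine ⟨L.comap f, finiteIndex_comap f L hL, g.comp (f.subgroupComap L), ?_⟩
  intro z
  obtain ⟨l, rfl⟩ := hg z
  obtain ⟨x, hx⟩ := hf l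
  refine ⟨⟨x, by simp [Subgroup.mem_comap, hx]⟩, ?_⟩
  simp only [MonoidHom.comp_apply]
  congr 1
  exact Subtype.ext hx

theorem VirtInd.of_finiteIndex {G : Type u} [Group G] (H : Subgroup G) (hH : H.FiniteIndex)
    (h : VirtInd H) : VirtInd G := by
  obtain ⟨L, hL, g, hg⟩ := h
  let e : L ≃* L.map H.subtype := Subgroup.equivMapOfInjective L H.subtype H.subtype_injective
  refine ⟨L.map H.subtype, finiteIndex_map_subtype H hH L hL, g.comp e.symm.toMonoidHom, ?_⟩
  intro z
  obtain ⟨l, rfl⟩ := hg z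
  exact ⟨e l, by simp only [MulEquiv.toMonoidHom_eq_coe, MonoidHom.coe_comp, MonoidHom.coe_coe, comp_apply, MulEquiv.symm_apply_apply]⟩

theorem VirtInd.of_comm {S : Type u} [CommGroup S] (hS : Group.FG S) (hinf : Infinite S) :
    VirtInd S := by
  have h1 : ∃ s : S, ∀ j : ℕ, s ^ j = 1 → j = 0 := by
    by_contra hcon
    push Not at hcon
    have htor : IsMulTorsion S := by
      intro s
      obtain ⟨j, hj, hj0⟩ := hcon s
      exact isOfFinOrder_iff_pow_eq_one.mpr ⟨j, Nat.pos_of_ne_zero hj0, hj⟩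
    have hfin : Finite S := CommGroup.finite_of_fg_isMulTorsion S htor
    exact not_finite S
  obtain ⟨s, hs⟩ := h1
  obtain ⟨ψ, hψ⟩ := exists_hom_int s hs
  obtain ⟨f, hf⟩ := exists_surj_int ψ s hψ
  refine ⟨⊤, inferInstance, f.comp (Subgroup.topEquiv (G := S)).toMonoidHom, ?_⟩
  intro z
  obtain ⟨l, rfl⟩ := hf z
  exact ⟨⟨l, trivial⟩, rfl⟩

/-- All infinite finitely generated sections are virtually indicable. -/
def SecVI (G : Type u) [Group G] : Prop :=
  ∀ (A S : Type u) [Group A] [Group S] (i : A →* G) (p : A →* S), Injective i → Surjective p →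
    Group.FG S → Infinite S → VirtInd S

theorem secVI_of_elemAmen {G : Type u} [Group G] (h : ElemAmen G) : SecVI G := by
  induction h with
  | of_finite G =>
    intro A S _ _ i p hi hp _ hinf
    have : Finite A := Finite.of_injective i hi
    have : Finite S := Finite.of_surjective p hp
    exact absurd hinf (not_infinite_iff_finite.mpr this)
  | of_comm G =>
    intro A S _ _ i p hi hp hfg hinf
    let _ : CommGroup S :=
      { (inferInstance : Group S) with
        mul_comm := by
          intro a b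
          obtain ⟨a, rfl⟩ := hp a
          obtain ⟨b, rfl⟩ := hp b
          have : a * b = b * a := hi (by rw [map_mul, map_mul, mul_comm])
          rw [← map_mul, this, map_mul] }
    exact VirtInd.of_comm hfg hinf
  | of_equiv e _ ih =>
    intro A S _ _ i p hi hp hfg hinf
    exact ih A S (e.symm.toMonoidHom.comp i) p (e.symm.injective.comp hi) hp hfg hinf
  | of_subgroup H _ ih =>
    intro A S _ _ i p hi hp hfg hinf
    exact ih A S (H.subtype.comp i) p (H.subtype_injective.comp hi) hp hfg hinf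
  | of_quotient N _ ih =>
    intro A S _ _ i p hi hp hfg hinf
    let f := QuotientGroup.mk' N
    have hf : Surjective f := QuotientGroup.mk'_surjective N
    let e : A ≃* i.range := MonoidHom.ofInjective hi
    let A' := i.range.comap f
    refine ih A' S A'.subtype ((p.comp e.symm.toMonoidHom).comp (f.subgroupComap i.range))
      A'.subtype_injective ?_ hfg hinf
    intro s
    obtain ⟨a, rfl⟩ := hp s
    obtain ⟨g, hg⟩ := hf (i a)
    refine ⟨⟨g, ?_⟩, ?_⟩
    · change f g ∈ i.range
      rw [hg]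
      exact ⟨a, rfl⟩
    · simp only [MonoidHom.comp_apply]
      congr 1
      change e.symm _ = a
      rw [MulEquiv.symm_apply_eq]
      apply Subtype.ext
      exact hg
  | @of_extension G _ N _ _ _ ihN ihQ =>
    intro A S _ _ i p hi hp hfg hinf
    let AN : Subgroup A := N.comap i
    let NS : Subgroup S := AN.map p
    have hANn : AN.Normal := inferInstance
    have hNSn : NS.Normal := hANn.map p hp
    by_cases hq : Infinite (S ⧸ NS)
    · have h1 : VirtInd (S ⧸ NS) := by
        refine ihQ (A ⧸ AN) (S ⧸ NS) (QuotientGroup.map AN N i (le_refl _))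
          (QuotientGroup.map AN NS p (Subgroup.le_comap_map p AN)) ?_ ?_ inferInstance hq
        · rw [injective_iff_map_eq_one]
          intro a ha
          obtain ⟨a, rfl⟩ := QuotientGroup.mk_surjective a
          have : ((i a : G) : G ⧸ N) = 1 := ha
          rw [QuotientGroup.eq_one_iff] at this
          exact (QuotientGroup.eq_one_iff a).mpr this
        · intro s
          obtain ⟨s, rfl⟩ := QuotientGroup.mk_surjective s
          obtain ⟨a, rfl⟩ := hp s
          exact ⟨(a : A ⧸ AN), rfl⟩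
      exact h1.of_surjective (QuotientGroup.mk' NS) (QuotientGroup.mk'_surjective NS)
    · have hqf : Finite (S ⧸ NS) := not_infinite_iff_finite.mp hq
      have hNSf : NS.FiniteIndex := Subgroup.finiteIndex_of_finite_quotient
      have hNSfg : Group.FG NS := inferInstance
      have hNSinf : Infinite NS := by
        by_contra hcon
        have hcf : Finite NS := not_infinite_iff_finite.mp hcon
        have : Finite S := (Subgroup.finite_iff_finite_and_finiteIndex (H := NS)).mpr ⟨hcf, hNSf⟩
        exact absurd hinf (not_infinite_iff_finite.mpr this)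
      refine VirtInd.of_finiteIndex NS hNSf ?_
      refine ihN AN NS (i.subgroupComap N) (p.subgroupMap AN) ?_ (p.subgroupMap_surjective AN)
        hNSfg hNSinf
      intro a b hab
      apply Subtype.ext
      apply hi
      exact congrArg Subtype.val hab
  | @of_directed G _ ι T hd hT _ ih =>
    intro A S _ _ i p hi hp hfg hinf
    classical
    obtain ⟨F, hF⟩ := hfg.1
    let g : S → A := Function.surjInv hp
    have hg : ∀ s, p (g s) = s := Function.surjInv_eq hp
    let A' : Subgroup A := Subgroup.closure (g '' (F : Set S))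
    have hk : ∀ F' : Finset S, ∃ k, ∀ s ∈ F', i (g s) ∈ T k := by
      intro F'
      induction F' using Finset.induction_on with
      | empty =>
        obtain ⟨k, _⟩ := hT 1
        exact ⟨k, by simp⟩
      | insert s F' _ ih' =>
        obtain ⟨k, hk⟩ := ih'
        obtain ⟨l, hl⟩ := hT (i (g s))
        obtain ⟨m, hm1, hm2⟩ := hd k l
        refine ⟨m, fun s' hs' => ?_⟩
        rcases Finset.mem_insert.mp hs' with rfl | hs'
        · exact hm2 hl
        · exact hm1 (hk s' hs')
    obtain ⟨k, hk⟩ := hk F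
    have hA' : ∀ a ∈ A', i a ∈ T k := by
      intro a ha
      have : A' ≤ (T k).comap i := by
        rw [Subgroup.closure_le]
        rintro _ ⟨s, hs, rfl⟩
        exact hk s hs
      exact this ha
    let j : A' →* T k := (i.comp A'.subtype).codRestrict (T k) (fun a => hA' a a.2)
    refine ih k A' S j (p.comp A'.subtype) ?_ ?_ hfg hinf
    · intro a b hab
      apply Subtype.ext
      apply hi
      exact congrArg Subtype.val hab
    · intro s
      have h1 : s ∈ (Subgroup.closure (g '' (F : Set S))).map p := by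
        rw [MonoidHom.map_closure, ← Set.image_comp]
        have : (p ∘ g) '' (F : Set S) = F := by
          have : (p ∘ g) = id := funext hg
          rw [this, Set.image_id]
        rw [this, hF]
        trivial
      obtain ⟨a, ha, rfl⟩ := h1
      exact ⟨⟨a, ha⟩, rfl⟩

end Vale.Agent.P284
end
end

section

section

namespace Vale.Agent.P284

open Function

universe u v w

open scoped commutatorElement in
theorem comm_eq_of_center {R : Type u} [Group R] (x y a b : R) (ha : a ∈ Subgroup.center R)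
    (hb : b ∈ Subgroup.center R) : ⁅x * a, y * b⁆ = ⁅x, y⁆ := by
  have ha' := Subgroup.mem_center_iff.mp ha
  have hb' := Subgroup.mem_center_iff.mp hb
  have h1 : ∀ z : R, (x * a) * z * (x * a)⁻¹ = x * z * x⁻¹ := by
    intro z
    have : (x * a) * z * (x * a)⁻¹ = x * (a * z * a⁻¹) * x⁻¹ := by group
    rw [this, ← ha' z]
    group
  have h2 : ∀ z : R, (y * b) * z * (y * b)⁻¹ = y * z * y⁻¹ := by
    intro z
    have : (y * b) * z * (y * b)⁻¹ = y * (b * z * b⁻¹) * y⁻¹ := by group
    rw [this, ← hb' z]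
    group
  rw [commutatorElement_def, commutatorElement_def, h1]
  have h3 : x * (y * b) * x⁻¹ * (y * b)⁻¹ = x * ((y * b) * x⁻¹ * (y * b)⁻¹) := by group
  rw [h3, h2]
  group

open scoped commutatorElement in
/-- A finitely generated infinite group with central commutators surjects onto `ℤ`. -/
theorem exists_surj_of_nilp {R : Type u} [Group R] (hfg : Group.FG R) (hinf : Infinite R)
    (hc : ∀ x y z : R, (x * y * x⁻¹ * y⁻¹) * z = z * (x * y * x⁻¹ * y⁻¹)) :
    ∃ f : R →* Multiplicative ℤ, Surjective f := by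
  have hAbfg : Group.FG (Abelianization R) :=
    Group.fg_of_surjective (f := Abelianization.of) (QuotientGroup.mk_surjective)
  by_cases h : ∃ s : Abelianization R, ∀ j : ℕ, s ^ j = 1 → j = 0
  · obtain ⟨s, hs⟩ := h
    obtain ⟨ψ, hψ⟩ := exists_hom_int s hs
    obtain ⟨x, rfl⟩ := QuotientGroup.mk_surjective s
    exact exists_surj_int (ψ.comp Abelianization.of) x hψ
  · exfalso
    push Not at h
    have htor : IsMulTorsion (Abelianization R) := by
      intro s
      obtain ⟨j, hj, hj0⟩ := h s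
      exact isOfFinOrder_iff_pow_eq_one.mpr ⟨j, Nat.pos_of_ne_zero hj0, hj⟩
    have hfin : Finite (Abelianization R) := CommGroup.finite_of_fg_isMulTorsion _ htor
    have hq : Finite (R ⧸ commutator R) := hfin
    have hci : (commutator R).FiniteIndex := Subgroup.finiteIndex_of_finite_quotient
    have hle : commutator R ≤ Subgroup.center R := by
      rw [commutator_def, Subgroup.commutator_le]
      intro x _ y _
      rw [Subgroup.mem_center_iff]
      intro z
      exact (hc x y z).symm
    have hcen : (Subgroup.center R).FiniteIndex := Subgroup.finiteIndex_of_le hle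
    have hcq : Finite (R ⧸ Subgroup.center R) := Subgroup.finiteIndex_iff_finite_quotient.mp hcen
    have hcs : Finite (commutatorSet R) := by
      let F : (R ⧸ Subgroup.center R) × (R ⧸ Subgroup.center R) → commutatorSet R := fun p =>
        ⟨⁅Quotient.out p.1, Quotient.out p.2⁆, ⟨_, _, rfl⟩⟩
      refine Finite.of_surjective F ?_
      rintro ⟨_, x, y, rfl⟩
      refine ⟨((x : R ⧸ Subgroup.center R), (y : R ⧸ Subgroup.center R)), ?_⟩
      apply Subtype.ext
      change ⁅Quotient.out (x : R ⧸ Subgroup.center R), Quotient.out (y : R ⧸ Subgroup.center R)⁆ =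
        ⁅x, y⁆
      have hx : (Quotient.out (x : R ⧸ Subgroup.center R))⁻¹ * x ∈ Subgroup.center R := by
        rw [← QuotientGroup.eq]
        exact Quotient.out_eq _
      have hy : (Quotient.out (y : R ⧸ Subgroup.center R))⁻¹ * y ∈ Subgroup.center R := by
        rw [← QuotientGroup.eq]
        exact Quotient.out_eq _
      have := comm_eq_of_center (Quotient.out (x : R ⧸ Subgroup.center R))
        (Quotient.out (y : R ⧸ Subgroup.center R)) _ _ hx hy
      rw [mul_inv_cancel_left, mul_inv_cancel_left] at this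
      exact this.symm
    have hcf : Finite (commutator R) := inferInstance
    have : Finite R := (Subgroup.finite_iff_finite_and_finiteIndex (H := commutator R)).mpr
      ⟨hcf, hci⟩
    exact not_finite R

/-- Induced representations. -/
theorem exists_induced {G : Type u} [Group G] (H : Subgroup G)
    (hH : H.FiniteIndex) {V : Type w} [AddCommGroup V] [Module ℂ V] [FiniteDimensional ℂ V]
    (ρ : H →* Module.End ℂ V) :
    ∃ (d : ℕ) (R : G →* Matrix.GeneralLinearGroup (Fin d) ℂ), ∀ x : H, R x = 1 → ρ x = 1 := by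
  classical
  let W : Submodule ℂ (G → V) :=
    { carrier := {F | ∀ (x : H) (g : G), F (x * g) = ρ x (F g)}
      add_mem' := by
        intro F F' hF hF' x g
        simp only [Pi.add_apply, hF x g, hF' x g, map_add]
      zero_mem' := by
        intro x g
        simp only [Pi.zero_apply, map_zero]
      smul_mem' := by
        intro c F hF x g
        simp [hF x g] }
  obtain ⟨T, hTf, hT⟩ : ∃ T : Set G, T.Finite ∧ ∀ g : G, ∃ x : H, ∃ t ∈ T, g = x * t := by
    have hfin : Finite (G ⧸ H) := Subgroup.finiteIndex_iff_finite_quotient.mp hH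
    refine ⟨Set.range (fun q : G ⧸ H => (Quotient.out q)⁻¹), Set.finite_range _, fun g => ?_⟩
    have h1 : (Quotient.out ((g⁻¹ : G) : G ⧸ H))⁻¹ * g⁻¹ ∈ H := by
      rw [← QuotientGroup.eq]
      exact Quotient.out_eq _
    refine ⟨⟨g * Quotient.out ((g⁻¹ : G) : G ⧸ H), ?_⟩, _, ⟨((g⁻¹ : G) : G ⧸ H), rfl⟩, ?_⟩
    · simpa only [mul_inv_rev, inv_inv] using H.inv_mem h1
    · simp
  have hTfin : Finite T := hTf
  let ev : W →ₗ[ℂ] (T → V) :=
    { toFun := fun F t => F.1 t
      map_add' := fun _ _ => rfl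
      map_smul' := fun _ _ => rfl }
  have hev : Injective ev := by
    intro F F' hFF
    apply Subtype.ext
    funext g
    obtain ⟨x, t, ht, rfl⟩ := hT g
    rw [F.2 x t, F'.2 x t]
    have := congrFun hFF ⟨t, ht⟩
    exact congrArg _ this
  have hWfd : FiniteDimensional ℂ W := Module.Finite.of_injective ev hev
  let R : G →* Module.End ℂ W :=
    { toFun := fun g =>
        { toFun := fun F => ⟨fun x => F.1 (x * g), by
            intro y x
            have := F.2 y (x * g)
            simpa only [mul_assoc] using this⟩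
          map_add' := fun _ _ => rfl
          map_smul' := fun _ _ => rfl }
      map_one' := by
        ext F x
        simp only [mul_one, Subtype.coe_eta, LinearMap.coe_mk, AddHom.coe_mk, Module.End.one_apply]
      map_mul' := by
        intro a b
        ext F x
        simp only [LinearMap.coe_mk, AddHom.coe_mk, Module.End.mul_apply, mul_assoc] }
  set b := Module.finBasis ℂ W
  let e : Module.End ℂ W ≃ₐ[ℂ] Matrix (Fin (Module.finrank ℂ W)) (Fin (Module.finrank ℂ W)) ℂ :=
    LinearMap.toMatrixAlgEquiv b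
  let σ : G →* Matrix.GeneralLinearGroup (Fin (Module.finrank ℂ W)) ℂ :=
    (Units.map (e : Module.End ℂ W →* _)).comp R.toHomUnits
  refine ⟨_, σ, fun x hx => ?_⟩
  have h1 : e (R x) = 1 := by
    have := congrArg Units.val hx
    simpa [σ] using this
  have h2 : R x = 1 := by
    apply e.injective
    rw [h1, map_one]
  ext v
  let F : W := ⟨fun g => if hg : g ∈ H then ρ ⟨g, hg⟩ v else 0, by
    intro x g
    by_cases hg : g ∈ H
    · have hxg : (x : G) * g ∈ H := H.mul_mem x.2 hg
      simp only [hg, hxg, dif_pos]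
      have : (⟨(x : G) * g, hxg⟩ : H) = x * ⟨g, hg⟩ := rfl
      rw [this, map_mul]
      rfl
    · have hxg : (x : G) * g ∉ H := fun hx => hg ((H.mul_mem_cancel_left x.2).mp hx)
      simp only [hxg, ↓reduceDIte, hg, map_zero]⟩
  have hFv : ∀ y : H, F.1 (y : G) = ρ y v := by
    intro y
    simp only [SetLike.coe_mem, ↓reduceDIte, Subtype.coe_eta, F]
  have h3 := congrArg (fun L : Module.End ℂ W => (L F).1 1) h2
  have h4 : F.1 (1 * (x : G)) = F.1 1 := h3
  rw [one_mul, hFv x] at h4
  have h5 := hFv 1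
  rw [map_one] at h5
  rw [h4]
  exact h5

/-- A virtually abelian finitely generated group has a linear representation with infinite image
on a given finitely generated infinite subgroup. -/
theorem exists_rep_of_virtAb {H : Type u} [Group H] (hH : Group.FG H) (hva : VirtAb H)
    (K : Subgroup H) (hK : K.FG) (hinf : Infinite K) :
    ∃ (d : ℕ) (τ : H →* Matrix.GeneralLinearGroup (Fin d) ℂ),
      Infinite (τ.comp K.subtype).range := by
  classical
  obtain ⟨A, hA, hab⟩ := hva
  have hKfg : Group.FG K := (Group.fg_iff_subgroup_fg K).mpr hK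
  have hAK : (A.subgroupOf K).FiniteIndex := inferInstance
  let _ : CommGroup A :=
    { (inferInstance : Group A) with
      mul_comm := fun a b => Subtype.ext (hab a a.2 b b.2) }
  let _ : CommGroup (A.subgroupOf K) :=
    { (inferInstance : Group (A.subgroupOf K)) with
      mul_comm := fun a b => Subtype.ext (Subtype.ext
        (hab _ (Subgroup.mem_subgroupOf.mp a.2) _ (Subgroup.mem_subgroupOf.mp b.2))) }
  have hAKfg : Group.FG (A.subgroupOf K) := inferInstance
  have hAKinf : Infinite (A.subgroupOf K) := by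
    by_contra hcon
    have hcf : Finite (A.subgroupOf K) := not_infinite_iff_finite.mp hcon
    have : Finite K := (Subgroup.finite_iff_finite_and_finiteIndex (H := A.subgroupOf K)).mpr
      ⟨hcf, hAK⟩
    exact not_finite K
  obtain ⟨a, ha⟩ : ∃ a : A.subgroupOf K, ∀ j : ℕ, a ^ j = 1 → j = 0 := by
    by_contra hcon
    push Not at hcon
    have htor : IsMulTorsion (A.subgroupOf K) := by
      intro s
      obtain ⟨j, hj, hj0⟩ := hcon s
      exact isOfFinOrder_iff_pow_eq_one.mpr ⟨j, Nat.pos_of_ne_zero hj0, hj⟩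
    have hfin : Finite (A.subgroupOf K) := CommGroup.finite_of_fg_isMulTorsion _ htor
    exact not_finite (A.subgroupOf K)
  let a' : A := ⟨(a : K), Subgroup.mem_subgroupOf.mp a.2⟩
  have ha' : ∀ j : ℕ, a' ^ j = 1 → j = 0 := by
    intro j hj
    apply ha j
    apply Subtype.ext
    apply Subtype.ext
    have := congrArg Subtype.val hj
    simpa only [SubmonoidClass.coe_pow, OneMemClass.coe_one, SubmonoidClass.mk_pow] using this
  have hAfg : Group.FG A := inferInstance
  obtain ⟨ψ, hψ⟩ := exists_hom_int a' ha'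
  let ρ : A →* Module.End ℂ ℂ :=
    { toFun := fun x => ((2 : ℂ) ^ (Multiplicative.toAdd (ψ x))) • LinearMap.id
      map_one' := by
        ext
        simp
      map_mul' := by
        intro x y
        ext
        simp [zpow_add₀, mul_comm] }
  obtain ⟨d, R, hR⟩ := exists_induced A hA ρ
  refine ⟨d, R, ?_⟩
  by_contra hcon
  have hfin : Finite (R.comp K.subtype).range := not_infinite_iff_finite.mp hcon
  let y : (R.comp K.subtype).range := ⟨R ((a : K) : H), ⟨(a : K), rfl⟩⟩
  obtain ⟨m, hm0, hm⟩ := isOfFinOrder_iff_pow_eq_one.mp (isOfFinOrder_of_finite y)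
  have h1 : R ((a' ^ m : A) : H) = 1 := by
    have := congrArg Subtype.val hm
    simpa only [SubmonoidClass.mk_pow, map_pow, SubmonoidClass.coe_pow, OneMemClass.coe_one] using this
  have h2 := hR _ h1
  have h3 := congrArg (fun L : Module.End ℂ ℂ => L 1) h2
  have h4 : (2 : ℂ) ^ ((m : ℤ) * Multiplicative.toAdd (ψ a')) = 1 := by
    simpa [ρ] using h3
  have h5 : (2 : ℝ) ^ ((m : ℤ) * Multiplicative.toAdd (ψ a')) = 1 := by
    have := congrArg (fun z : ℂ => ‖z‖) h4
    simpa only [norm_zpow, Complex.norm_ofNat, norm_one] using this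
  have h6 : (m : ℤ) * Multiplicative.toAdd (ψ a') = 0 := by
    have := zpow_right_injective₀ (a := (2 : ℝ)) (by norm_num) (by norm_num)
    apply this
    simpa only [zpow_ofNat, pow_zero] using h5
  rcases mul_eq_zero.mp h6 with h | h
  · omega
  · exact hψ h

/-- If `K` has an infinite linear representation with finite orbit under `H`, it is virtually
indicable. -/
theorem virtInd_of_periodic {H : Type u} [Group H] (K : Subgroup H) [hKn : K.Normal] (hK : K.FG)
    (hlin : LinVirtAb H) (d : ℕ) (σ : K →* Matrix.GeneralLinearGroup (Fin d) ℂ)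
    (hinf : Infinite σ.range) (H' : Subgroup H) (hH' : H'.FiniteIndex)
    (hper : ∀ h ∈ H', ∃ P : Matrix.GeneralLinearGroup (Fin d) ℂ, ∀ k l : K,
      (l : H) = h * k * h⁻¹ → σ l = P * σ k * P⁻¹) : VirtInd K := by
  classical
  let M := Matrix (Fin d) (Fin d) ℂ
  let sv : K → M := fun k => (σ k).val
  have hsv : ∀ k l : K, sv (k * l) = sv k * sv l := fun k l => by simp [sv]
  have hsv1 : sv 1 = 1 := by simp only [map_one, Units.val_one, sv]
  let W : Submodule ℂ M := Submodule.span ℂ (Set.range sv)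
  have hmem : ∀ k : K, sv k ∈ W := fun k => Submodule.subset_span ⟨k, rfl⟩
  let cj : H → K → K := fun h k => ⟨h * k * h⁻¹, hKn.conj_mem _ k.2 h⟩
  choose! P hP using hper
  have hPc : ∀ h ∈ H', ∀ k : K, sv (cj h k) = (P h).val * sv k * (P h)⁻¹.val := by
    intro h hh k
    have := hP h hh k (cj h k) rfl
    simp only [sv, this]
    rfl
  let α₀ : H' → M →ₗ[ℂ] M := fun h =>
    (LinearMap.mulLeft ℂ (P h).val).comp (LinearMap.mulRight ℂ (P h)⁻¹.val)
  have hα₀ : ∀ (h : H') (a : M), α₀ h a = (P h).val * a * (P h)⁻¹.val := by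
    intro h a
    simp only [Matrix.coe_units_inv, LinearMap.coe_comp, comp_apply, LinearMap.mulRight_apply, LinearMap.mulLeft_apply, mul_assoc, α₀]
  have hα₀s : ∀ (h : H') (k : K), α₀ h (sv k) = sv (cj h k) := by
    intro h k
    rw [hα₀, hPc h h.2 k]
  have hα₀W : ∀ (h : H'), ∀ a ∈ W, α₀ h a ∈ W := by
    intro h a ha
    induction ha using Submodule.span_induction with
    | mem a ha =>
      obtain ⟨k, rfl⟩ := ha
      rw [hα₀s]
      exact hmem _
    | zero => rw [map_zero]; exact W.zero_mem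
    | add a b _ _ ha hb => rw [map_add]; exact W.add_mem ha hb
    | smul c a _ ha => rw [map_smul]; exact W.smul_mem c ha
  have hext : ∀ f g : M →ₗ[ℂ] M, (∀ k : K, f (sv k) = g (sv k)) → ∀ a ∈ W, f a = g a := by
    intro f g hfg a ha
    induction ha using Submodule.span_induction with
    | mem a ha =>
      obtain ⟨k, rfl⟩ := ha
      exact hfg k
    | zero => rw [map_zero, map_zero]
    | add a b _ _ ha hb => rw [map_add, map_add, ha, hb]
    | smul c a _ ha => rw [map_smul, map_smul, ha]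
  let α : H' →* Module.End ℂ W :=
    { toFun := fun h => (α₀ h).restrict (hα₀W h)
      map_one' := by
        apply LinearMap.ext
        intro a
        apply Subtype.ext
        have : ∀ k : K, α₀ 1 (sv k) = LinearMap.id (R := ℂ) (sv k) := by
          intro k
          rw [hα₀s]
          have : cj ((1 : H') : H) k = k := by
            apply Subtype.ext
            simp only [OneMemClass.coe_one, one_mul, inv_one, mul_one, cj]
          rw [this]
          rfl
        exact hext _ _ this a a.2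
      map_mul' := by
        intro g h
        apply LinearMap.ext
        intro a
        apply Subtype.ext
        have : ∀ k : K, α₀ (g * h) (sv k) = ((α₀ g).comp (α₀ h)) (sv k) := by
          intro k
          change α₀ (g * h) (sv k) = α₀ g (α₀ h (sv k))
          rw [hα₀s, hα₀s, hα₀s]
          congr 1
          apply Subtype.ext
          simp only [Subgroup.coe_mul, mul_assoc, mul_inv_rev, cj]
        exact hext _ _ this a a.2 }
  have hα : ∀ (h : H') (k : K), ((α h) ⟨sv k, hmem k⟩ : M) = sv (cj h k) := hα₀s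
  obtain ⟨A, hA, hab⟩ := repVA_of_lin (hlin.subgroup H' hH') W α
  let K₂ : Subgroup K := (A.map H'.subtype).comap K.subtype
  have hK₂ : K₂.FiniteIndex := finiteIndex_comap _ _ (finiteIndex_map_subtype H' hH' A hA)
  have hK₂mem : ∀ k ∈ K₂, ∃ a ∈ A, (a : H) = k := by
    intro k hk
    obtain ⟨a, ha, hak⟩ := hk
    exact ⟨a, ha, hak⟩
  have hkey : ∀ k ∈ K₂, ∀ l ∈ K₂, ∀ m : K, sv (k * l * m * l⁻¹ * k⁻¹) = sv (l * k * m * k⁻¹ * l⁻¹) := by
    intro k hk l hl m
    obtain ⟨a, ha, hak⟩ := hK₂mem k hk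
    obtain ⟨b, hb, hbl⟩ := hK₂mem l hl
    have h1 := congrArg (fun L : Module.End ℂ W => ((L ⟨sv m, hmem m⟩ : W) : M)) (hab a ha b hb)
    have h2 : ∀ x y : H', (((α x * α y) ⟨sv m, hmem m⟩ : W) : M) = sv (cj x (cj y m)) := by
      intro x y
      rw [← map_mul, hα]
      congr 1
      apply Subtype.ext
      simp only [Subgroup.coe_mul, mul_assoc, mul_inv_rev, cj]
    have h3 : sv (cj a (cj b m)) = sv (cj b (cj a m)) := by
      rw [← h2, ← h2]
      exact h1
    have h4 : cj a (cj b m) = k * l * m * l⁻¹ * k⁻¹ := by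
      apply Subtype.ext
      simp only [hak, hbl, mul_assoc, Subgroup.coe_mul, InvMemClass.coe_inv, cj]
    have h5 : cj b (cj a m) = l * k * m * k⁻¹ * l⁻¹ := by
      apply Subtype.ext
      simp only [hbl, hak, mul_assoc, Subgroup.coe_mul, InvMemClass.coe_inv, cj]
    rw [← h4, ← h5]
    exact h3
  have hkey' : ∀ k ∈ K₂, ∀ l ∈ K₂, ∀ m : K,
      σ (k * l * m * l⁻¹ * k⁻¹) = σ (l * k * m * k⁻¹ * l⁻¹) := fun k hk l hl m =>
    Units.ext (hkey k hk l hl m)
  let τ : K₂ →* Matrix.GeneralLinearGroup (Fin d) ℂ := σ.comp K₂.subtype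
  have hKfg : Group.FG K := (Group.fg_iff_subgroup_fg K).mpr hK
  have hRfg : Group.FG τ.range := Group.fg_range τ
  have hRinf : Infinite τ.range := by
    by_contra hcon
    have hRf : Finite τ.range := not_infinite_iff_finite.mp hcon
    have hker : τ.ker.FiniteIndex := Subgroup.finiteIndex_ker τ
    have hker2 : (τ.ker.map K₂.subtype).FiniteIndex := finiteIndex_map_subtype K₂ hK₂ _ hker
    have hle : τ.ker.map K₂.subtype ≤ σ.ker := by
      rintro _ ⟨x, hx, rfl⟩
      exact hx
    have hσk : σ.ker.FiniteIndex := Subgroup.finiteIndex_of_le hle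
    have : Finite (K ⧸ σ.ker) := Subgroup.finiteIndex_iff_finite_quotient.mp hσk
    have : Finite σ.range := Finite.of_equiv _ (QuotientGroup.quotientKerEquivRange σ).toEquiv
    exact not_finite σ.range
  have hc : ∀ x y z : τ.range, (x * y * x⁻¹ * y⁻¹) * z = z * (x * y * x⁻¹ * y⁻¹) := by
    rintro ⟨_, x, rfl⟩ ⟨_, y, rfl⟩ ⟨_, z, rfl⟩
    apply Subtype.ext
    have h1 := hkey' (x : K)⁻¹ (K₂.inv_mem x.2) (y : K)⁻¹ (K₂.inv_mem y.2) z
    simp only [inv_inv, map_mul, map_inv] at h1
    change (σ x * σ y * (σ x)⁻¹ * (σ y)⁻¹) * σ z = σ z * (σ x * σ y * (σ x)⁻¹ * (σ y)⁻¹)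
    have h2 : (σ x * σ y * (σ x)⁻¹ * (σ y)⁻¹) * σ z =
        σ x * σ y * ((σ x)⁻¹ * (σ y)⁻¹ * σ z * σ y * σ x) * (σ x)⁻¹ * (σ y)⁻¹ := by group
    rw [h2, h1]
    group
  obtain ⟨f, hf⟩ := exists_surj_of_nilp hRfg hRinf hc
  exact ⟨K₂, hK₂, f.comp τ.rangeRestrict, hf.comp τ.rangeRestrict_surjective⟩

end Vale.Agent.P284
end
end

section

section

namespace Vale.Agent.P284

open Function

universe u v w

theorem mem_zKer {G : Type u} [Group G] {x : G} :
    x ∈ zKer G ↔ ∀ f : G →* Multiplicative ℤ, f x = 1 := by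
  simp only [zKer, Subgroup.mem_iInf, MonoidHom.mem_ker]

theorem exists_surj_succ {P : Type u} [Group P] {Q : Type v} [Group Q] {r : ℕ}
    (f : Q →* Multiplicative (Fin r → ℤ)) (hf : Surjective f) (i : P →* Q)
    (hfi : i.range.FiniteIndex)
    (ψ : P →* Multiplicative ℤ) (k : P) (hk : f (i k) = 1) (hψ : ψ k ≠ 1) :
    ∃ F : P →* Multiplicative (Fin (r + 1) → ℤ), Surjective F := by
  classical
  let F : P →* Multiplicative (Fin (r + 1) → ℤ) :=
    { toFun := fun x => Multiplicative.ofAdd
        (Fin.cons (Multiplicative.toAdd (ψ x)) (Multiplicative.toAdd (f (i x))) :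
          Fin (r + 1) → ℤ)
      map_one' := by
        apply Multiplicative.toAdd.injective
        funext j
        refine Fin.cases ?_ (fun j => ?_) j
        · simp
        · simp
      map_mul' := by
        intro x y
        apply Multiplicative.toAdd.injective
        funext j
        refine Fin.cases ?_ (fun j => ?_) j
        · simp
        · simp }
  let F' : Additive P →+ (Fin (r + 1) → ℤ) := MonoidHom.toAdditiveLeft F
  have hF'0 : ∀ x : P, F' (Additive.ofMul x) 0 = Multiplicative.toAdd (ψ x) := fun _ => rfl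
  have hF's : ∀ (x : P) (j : Fin r), F' (Additive.ofMul x) j.succ =
      Multiplicative.toAdd (f (i x)) j := fun _ _ => rfl
  let R : Submodule ℤ (Fin (r + 1) → ℤ) := AddSubgroup.toIntSubmodule F'.range
  -- elements
  have hx : ∀ j : Fin r, ∃ (x : P) (m : ℕ), m ≠ 0 ∧ f (i x) =
      Multiplicative.ofAdd (m • (Pi.single j 1 : Fin r → ℤ)) := by
    intro j
    obtain ⟨q, hq⟩ := hf (Multiplicative.ofAdd (Pi.single j 1))
    obtain ⟨m, hm0, hm⟩ := Subgroup.exists_pow_mem_of_index_ne_zero hfi.index_ne_zero q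
    obtain ⟨x, hx⟩ := hm.2
    refine ⟨x, m, by omega, ?_⟩
    rw [hx, map_pow, hq]
    rfl
  choose x m hm0 hxm using hx
  let v : Fin (r + 1) → R := Fin.cons ⟨F' (Additive.ofMul k), ⟨_, rfl⟩⟩
    (fun j => ⟨F' (Additive.ofMul (x j)), ⟨_, rfl⟩⟩)
  have hv0 : (v 0 : Fin (r + 1) → ℤ) = F' (Additive.ofMul k) := rfl
  have hvs : ∀ j : Fin r, (v j.succ : Fin (r + 1) → ℤ) = F' (Additive.ofMul (x j)) :=
    fun _ => rfl
  have hli : LinearIndependent ℤ v := by
    rw [Fintype.linearIndependent_iff]
    intro g hg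
    have hg' : ∑ j, g j • (v j : Fin (r + 1) → ℤ) = 0 := by
      have := congrArg Subtype.val hg
      simpa only [zsmul_eq_mul, AddSubmonoidClass.coe_finsetSum, SetLike.val_smul, ZeroMemClass.coe_zero] using this
    rw [Fin.sum_univ_succ] at hg'
    have hs : ∀ j : Fin r, g j.succ = 0 := by
      intro j
      have h1 := congrFun hg' j.succ
      simp only [Pi.add_apply, Pi.smul_apply, Finset.sum_apply, hv0, hvs, hF's, hk, hxm] at h1
      simp only [toAdd_one, Pi.zero_apply, toAdd_ofAdd, smul_eq_mul,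
        nsmul_eq_mul] at h1
      rw [Finset.sum_eq_single j] at h1
      · simp only [mul_zero, Pi.mul_apply, Pi.natCast_apply, Pi.single_eq_same, mul_one, zero_add, mul_eq_zero, Int.natCast_eq_zero] at h1
        rcases h1 with h | h
        · exact h
        · exact absurd h (hm0 j)
      · intro b _ hb
        simp only [Pi.mul_apply, Pi.natCast_apply, ne_eq, Ne.symm hb, not_false_eq_true, Pi.single_eq_of_ne, mul_zero]
      · simp only [Finset.mem_univ, not_true_eq_false, Pi.mul_apply, Pi.natCast_apply, Pi.single_eq_same, mul_one, mul_eq_zero, Int.natCast_eq_zero, IsEmpty.forall_iff]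
    have h0 : g 0 = 0 := by
      have h1 := congrFun hg' 0
      simp only [hs, zero_smul, Finset.sum_const_zero, add_zero, hv0, Pi.smul_apply, hF'0,
        smul_eq_mul, Pi.zero_apply] at h1
      rcases mul_eq_zero.mp h1 with h | h
      · exact h
      · exact absurd h hψ
    intro j
    refine Fin.cases h0 hs j
  have hrank : Module.finrank ℤ R = r + 1 := by
    apply le_antisymm
    · have h1 := Submodule.finrank_le R
      simpa only [ge_iff_le, Module.finrank_fintype_fun_eq_card, Fintype.card_fin] using h1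
    · have h1 := hli.fintype_card_le_finrank
      simpa only [Order.add_one_le_iff, gt_iff_lt, Fintype.card_fin] using h1
  let b : Module.Basis (Fin (r + 1)) ℤ R := Module.finBasisOfFinrankEq ℤ R hrank
  let e : R ≃ₗ[ℤ] (Fin (r + 1) → ℤ) := b.equivFun
  let G' : Additive P →+ (Fin (r + 1) → ℤ) :=
    (e.toLinearMap.toAddMonoidHom).comp (F'.rangeRestrict)
  have hG' : Surjective G' := by
    intro y
    obtain ⟨z, rfl⟩ := e.surjective y
    obtain ⟨⟨w, hw⟩⟩ : Nonempty {w : Additive P // F' w = z.1} := by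
      obtain ⟨w, hw⟩ := z.2
      exact ⟨⟨w, hw⟩⟩
    refine ⟨w, ?_⟩
    change e ⟨F' w, _⟩ = e z
    congr 1
    exact Subtype.ext hw
  exact ⟨AddMonoidHom.toMultiplicativeRight G', hG'⟩

theorem fg_of_finiteIndex {G : Type u} [Group G] (H : Subgroup G) (hH : H.FiniteIndex)
    (hfg : Group.FG H) : Group.FG G := by
  classical
  obtain ⟨S, hS⟩ := hfg.1
  have hfin : Finite (G ⧸ H) := Subgroup.finiteIndex_iff_finite_quotient.mp hH
  rw [Group.fg_iff]
  refine ⟨(Subtype.val '' (S : Set H)) ∪ Set.range (fun q : G ⧸ H => Quotient.out q), ?_,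
    (S.finite_toSet.image _).union (Set.finite_range _)⟩
  rw [eq_top_iff]
  intro g _
  have h1 : (Quotient.out ((g : G) : G ⧸ H))⁻¹ * g ∈ H := by
    rw [← QuotientGroup.eq]
    exact Quotient.out_eq _
  have h2 : H ≤ Subgroup.closure ((Subtype.val '' (S : Set H)) ∪
      Set.range (fun q : G ⧸ H => Quotient.out q)) := by
    have h3 : H = (Subgroup.closure (S : Set H)).map H.subtype := by
      rw [hS]
      ext x
      simp only [Subgroup.mem_map, Subgroup.mem_top, Subgroup.subtype_apply, true_and, Subtype.exists, exists_prop, exists_eq_right]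
    intro x hx
    rw [h3, MonoidHom.map_closure] at hx
    exact Subgroup.closure_mono (Set.subset_union_left) hx
  have h4 : Quotient.out ((g : G) : G ⧸ H) ∈ Subgroup.closure ((Subtype.val '' (S : Set H)) ∪
      Set.range (fun q : G ⧸ H => Quotient.out q)) :=
    Subgroup.subset_closure (Or.inr ⟨_, rfl⟩)
  have := Subgroup.mul_mem _ h4 (h2 h1)
  simpa only [mul_inv_cancel_left] using this

/-- The main group-theoretic statement, extracting the maximal cover. -/
theorem main_group {G : Type u} [Group G] (n : ℕ)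
    (hb : ∀ H : Subgroup G, H.FiniteIndex → ∀ (k : ℕ) (f : H →* Multiplicative (Fin k → ℤ)),
      Surjective f → k ≤ n)
    (hfg : ∀ H : Subgroup G, H.FiniteIndex → (zKer H).FG)
    (hlin : LinVirtAb G) :
    Group.FG G ∧ ∃ H : Subgroup G, H.FiniteIndex ∧ Group.FG H ∧
      ((Infinite (zKer H) → VirtInd (zKer H)) → Finite (zKer H)) := by
  classical
  let p : ℕ → Prop := fun k => ∃ H : Subgroup G, H.FiniteIndex ∧
    ∃ f : H →* Multiplicative (Fin k → ℤ), Surjective f
  have hp0 : p 0 := by
    refine ⟨⊤, inferInstance, 1, ?_⟩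
    intro y
    refine ⟨1, ?_⟩
    apply Multiplicative.toAdd.injective
    exact Subsingleton.elim _ _
  have hpb : ∀ k, p k → k ≤ n := by
    rintro k ⟨H, hH, f, hf⟩
    exact hb H hH k f hf
  obtain ⟨r, hr, hrmax⟩ : ∃ r, p r ∧ ∀ k, p k → k ≤ r := by
    refine ⟨Nat.findGreatest p n, Nat.findGreatest_spec (Nat.zero_le n) hp0, fun k hk => ?_⟩
    exact Nat.le_findGreatest (hpb k hk) hk
  obtain ⟨H, hH, f, hf⟩ := hr
  have hmax : ∀ Q₁ : Subgroup H, Q₁.FiniteIndex → ∀ ψ : Q₁ →* Multiplicative ℤ, ∀ k : Q₁,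
      (k : H) ∈ f.ker → ψ k = 1 := by
    intro Q₁ hQ₁ ψ k hk
    by_contra hψ
    obtain ⟨F, hF⟩ := exists_surj_succ f hf Q₁.subtype (by rw [Subgroup.range_subtype]; exact hQ₁)
      ψ k hk hψ
    let e : Q₁ ≃* Q₁.map H.subtype :=
      Subgroup.equivMapOfInjective Q₁ H.subtype H.subtype_injective
    have : p (r + 1) := ⟨Q₁.map H.subtype, finiteIndex_map_subtype H hH Q₁ hQ₁,
      F.comp e.symm.toMonoidHom, hF.comp e.symm.surjective⟩
    have := hrmax _ this
    omega
  have hker : f.ker = zKer H := by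
    apply le_antisymm
    · intro x hx
      rw [mem_zKer]
      intro ψ
      have h1 := hmax ⊤ inferInstance (ψ.comp (Subgroup.topEquiv (G := H)).toMonoidHom)
        ⟨x, trivial⟩ hx
      exact h1
    · intro x hx
      rw [mem_zKer] at hx
      rw [MonoidHom.mem_ker]
      apply Multiplicative.toAdd.injective
      funext j
      let c : Multiplicative (Fin r → ℤ) →* Multiplicative ℤ :=
        AddMonoidHom.toMultiplicative (Pi.evalAddMonoidHom (fun _ : Fin r => ℤ) j)
      exact hx (c.comp f)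
  have hKfg : f.ker.FG := by
    rw [hker]
    exact hfg H hH
  have hHfg : Group.FG H := fg_of_ker_fg inferInstance f hf hKfg
  refine ⟨fg_of_finiteIndex H hH hHfg, H, hH, hHfg, ?_⟩
  intro hVI
  rw [← hker] at hVI ⊢
  exact ker_finite f hf hKfg (hlin.subgroup H hH) hmax hVI

theorem virtAb_of_finite_zKer {H : Type u} [Group H] (hH : Group.FG H) (hfin : Finite (zKer H)) :
    VirtAb H := by
  let A := (H →* Multiplicative ℤ) → Multiplicative ℤ
  let ev : H →* A :=
    { toFun := fun h ψ => ψ h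
      map_one' := funext fun ψ => map_one ψ
      map_mul' := fun x y => funext fun ψ => map_mul ψ x y }
  have hker : ev.ker = zKer H := by
    ext x
    rw [mem_zKer, MonoidHom.mem_ker]
    exact funext_iff
  exact virtAb_of_finite_ker ev (by rw [hker]; exact hfin)

theorem ElemAmen.of_virtAb {G : Type u} [Group G] (h : VirtAb G) : ElemAmen G := by
  obtain ⟨A, hA, hab⟩ := h
  have hN : ElemAmen A.normalCore := by
    let _ : CommGroup A.normalCore :=
      { (inferInstance : Group A.normalCore) with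
        mul_comm := by
          intro a b
          exact Subtype.ext (hab a (A.normalCore_le a.2) b (A.normalCore_le b.2)) }
    exact ElemAmen.of_comm A.normalCore
  have hfi : A.normalCore.FiniteIndex := inferInstance
  have hq : Finite (G ⧸ A.normalCore) := Subgroup.finiteIndex_iff_finite_quotient.mp hfi
  exact ElemAmen.of_extension A.normalCore hN (ElemAmen.of_finite _)

/-- Equivalent forms of virtual commutativity under the known restrictions. -/
theorem tfae_group {G : Type u} [Group G] (n : ℕ)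
    (hb : ∀ H : Subgroup G, H.FiniteIndex → ∀ (k : ℕ) (f : H →* Multiplicative (Fin k → ℤ)),
      Surjective f → k ≤ n)
    (hfg : ∀ H : Subgroup G, H.FiniteIndex → (zKer H).FG)
    (hlin : LinVirtAb G) :
    List.TFAE [VirtAb G,
      ElemAmen G,
      ∀ K : Subgroup G, K.FG → Infinite K → VirtInd K,
      ∀ H : Subgroup G, H.FiniteIndex → Infinite (zKer H) → VirtInd (zKer H),
      KerPeriodic G,
      ∃ H : Subgroup G, H.FiniteIndex ∧ Finite (zKer H)] := by
  obtain ⟨hGfg, H₀, hH₀, hH₀fg, hmain⟩ := main_group n hb hfg hlin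
  tfae_have 1 → 2 := ElemAmen.of_virtAb
  tfae_have 2 → 3 := by
    intro h K hK hinf
    exact secVI_of_elemAmen h K K K.subtype (MonoidHom.id K) K.subtype_injective
      surjective_id ((Group.fg_iff_subgroup_fg K).mpr hK) hinf
  tfae_have 3 → 4 := by
    intro h H hH hinf
    let e : zKer H ≃* (zKer H).map H.subtype :=
      Subgroup.equivMapOfInjective (zKer H) H.subtype H.subtype_injective
    have hfgH : Group.FG (zKer H) := (Group.fg_iff_subgroup_fg _).mpr (hfg H hH)
    have h1 : Group.FG ((zKer H).map H.subtype) :=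
      Group.fg_of_surjective (f := e.toMonoidHom) e.surjective
    have h2 : Infinite ((zKer H).map H.subtype) := Infinite.of_injective e e.injective
    exact (h _ ((Group.fg_iff_subgroup_fg _).mp h1) h2).of_surjective e.toMonoidHom e.surjective
  tfae_have 4 → 6 := fun h => ⟨H₀, hH₀, hmain (h H₀ hH₀)⟩
  tfae_have 1 → 5 := by
    intro h H hH hinf
    have hHfg : Group.FG H := inferInstance
    obtain ⟨d, τ, hτ⟩ := exists_rep_of_virtAb hHfg (h.of_comap H.subtype H.subtype_injective)
      (zKer H) (hfg H hH) hinf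
    refine ⟨d, τ, fun x _ y _ => map_mul τ x y, ?_, ⊤, inferInstance, fun x _ => ⟨τ x, fun k _ => ?_⟩⟩
    · intro hfin
      apply (not_finite_iff_infinite.mpr hτ)
      apply Set.Finite.subset hfin
      rintro _ ⟨k, rfl⟩
      exact ⟨k, k.2, rfl⟩
    · rw [map_mul, map_mul, map_inv]
  tfae_have 5 → 4 := by
    intro h H hH hinf
    obtain ⟨d, σ, hσm, hσi, H', hH', hper⟩ := h H hH hinf
    have hn : (zKer H).Normal := by
      refine ⟨fun x hx g => ?_⟩
      rw [mem_zKer] at hx ⊢
      intro f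
      rw [map_mul, map_mul, hx f, map_inv, mul_one, mul_inv_cancel]
    have hσ1 : σ 1 = 1 := by
      have := hσm 1 (one_mem _) 1 (one_mem _)
      rw [one_mul] at this
      exact left_eq_mul.mp this
    let τ : zKer H →* Matrix.GeneralLinearGroup (Fin d) ℂ :=
      { toFun := fun k => σ k
        map_one' := hσ1
        map_mul' := fun x y => hσm x x.2 y y.2 }
    refine virtInd_of_periodic (zKer H) (hfg H hH) (hlin.subgroup H hH) d τ ?_ H' hH' ?_
    · by_contra hcon
      have hf : Finite τ.range := not_infinite_iff_finite.mp hcon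
      apply hσi
      apply Set.Finite.subset (s := (τ.range : Set (Matrix.GeneralLinearGroup (Fin d) ℂ))) hf
      rintro _ ⟨k, hk, rfl⟩
      exact ⟨⟨k, hk⟩, rfl⟩
    · intro x hx
      obtain ⟨P, hP⟩ := hper x hx
      refine ⟨P, fun k l hl => ?_⟩
      have := hP k k.2
      rw [← hl] at this
      exact this
  tfae_have 6 → 1 := by
    rintro ⟨H, hH, hfin⟩
    have hHfg : Group.FG H := inferInstance
    exact VirtAb.of_finiteIndex H hH (virtAb_of_finite_zKer hHfg hfin)
  tfae_finish

theorem tfae_restricted {G : Type u} [Group G] {N : ℕ} (h : Restricted G N) :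
    (criteria G).TFAE := by
  have key := tfae_group N (fun H hH k f hf => (h.1 H hH).1 k (fun x => Multiplicative.toAdd (f x))
      (fun x y i => by rw [map_mul]; rfl) hf)
    (fun H hH => (h.1 H hH).2) h.2
  unfold criteria
  tfae_have 1 ↔ 2 := key.out 0 1
  tfae_have 1 ↔ 3 := key.out 0 3
  tfae_have 1 ↔ 4 := key.out 0 4
  tfae_have 1 ↔ 5 := key.out 0 5
  tfae_finish

end Vale.Agent.P284
end
end
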